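import Vale.Agent.P154.Avg

/-!
# Moments of the normalised likelihood vector

For a vector `v` with total `t` the coordinates are `rr v = 3 v / t - 1` and the weight is `t / 3`.
-/

namespace Vale.Agent.P154.Q3

open scoped BigOperators

variable {f : (Fin 3 → ℝ) → ℝ} {h h' : (Fin 3 → ℝ) → ℝ} {lam : ℝ} {Ω : Type} [Fintype Ω]
  {L : Ω → Fin 3 → ℝ}

/-- Normalised coordinates. -/
noncomputable def rr (v : Fin 3 → ℝ) (i : Fin 3) : ℝ := 3 * v i / tot v - 1

/-- The functional given by `h` in normalised coordinates. -/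
noncomputable def rf (h : (Fin 3 → ℝ) → ℝ) (v : Fin 3 → ℝ) : ℝ := tot v / 3 * h (rr v)

/-- The sum of squares. -/
def P2 (r : Fin 3 → ℝ) : ℝ := r 0 ^ 2 + r 1 ^ 2 + r 2 ^ 2
/-- The sum of cubes. -/
def P3 (r : Fin 3 → ℝ) : ℝ := r 0 ^ 3 + r 1 ^ 3 + r 2 ^ 3
/-- The square of `P2`. -/
def P4 (r : Fin 3 → ℝ) : ℝ := P2 r ^ 2
/-- The product of `P2` and `P3`. -/
def P5 (r : Fin 3 → ℝ) : ℝ := P2 r * P3 r

/-- The values normalised coordinates can take. -/
def InSlice (r : Fin 3 → ℝ) : Prop := (∀ i, -1 ≤ r i ∧ r i ≤ 2) ∧ r 0 + r 1 + r 2 = 0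

theorem tot_nonneg {v : Fin 3 → ℝ} (hv : ∀ i, 0 ≤ v i) : 0 ≤ tot v :=
  add_nonneg (add_nonneg (hv 0) (hv 1)) (hv 2)

theorem eq_zero_of_tot {v : Fin 3 → ℝ} (hv : ∀ i, 0 ≤ v i) (h0 : tot v = 0) : v = 0 := by
  have := hv 0; have := hv 1; have := hv 2
  simp only [tot] at h0
  funext i; fin_cases i <;> simp <;> linarith

theorem inSlice_rr {v : Fin 3 → ℝ} (hv : ∀ i, 0 ≤ v i) (ht : 0 < tot v) : InSlice (rr v) := by
  refine ⟨fun i => ⟨?_, ?_⟩, ?_⟩
  · have : 0 ≤ 3 * v i / tot v := div_nonneg (by linarith [hv i]) ht.le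
    unfold rr; linarith
  · have : 3 * v i / tot v ≤ 3 := by
      rw [div_le_iff₀ ht]
      have := hv 0; have := hv 1; have := hv 2
      fin_cases i <;> simp [tot] <;> linarith
    unfold rr; linarith
  · simp only [rr]; field_simp; simp only [tot]; ring

/-- Positively homogeneous, and bounded by the total. -/
structure HomB (f : (Fin 3 → ℝ) → ℝ) : Prop where
  smul : ∀ (c : ℝ) (v : Fin 3 → ℝ), 0 ≤ c → (∀ i, 0 ≤ v i) → f (c • v) = c * f v
  bound : ∃ B, ∀ v : Fin 3 → ℝ, (∀ i, 0 ≤ v i) → |f v| ≤ B * (tot v / 3)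

theorem rf_smul (h : (Fin 3 → ℝ) → ℝ) (c : ℝ) (v : Fin 3 → ℝ) :
    rf h (c • v) = c * rf h v := by
  have ht : tot (c • v) = c * tot v := by simp [tot]; ring
  rcases eq_or_ne c 0 with rfl | hc
  · simp [rf, tot]
  · have e : rr (c • v) = rr v := funext fun i => by
      simp only [rr, ht, Pi.smul_apply, smul_eq_mul]
      rw [mul_left_comm 3 c, mul_div_mul_left _ _ hc]
    rw [rf, rf, e, ht]; ring

theorem homB_rf {B : ℝ} (hh : ∀ r, InSlice r → |h r| ≤ B) : HomB (rf h) where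
  smul c v _ _ := rf_smul h c v
  bound := ⟨B, fun v hv => by
    rcases (tot_nonneg hv).eq_or_lt with ht | ht
    · simp [rf, ← ht]
    · rw [rf, abs_mul, abs_of_pos (by linarith : 0 < tot v / 3), mul_comm B]
      exact mul_le_mul_of_nonneg_left (hh _ (inSlice_rr hv ht)) (by linarith)⟩

theorem sum_tot_third (hL : IsStoch L) : ∑ η, tot (L η) / 3 = 1 := by
  simp only [tot, ← Finset.sum_div, Finset.sum_add_distrib, hL.2]
  norm_num

theorem abs_fval_le_bound {B : ℝ} (hB : ∀ v : Fin 3 → ℝ, (∀ i, 0 ≤ v i) → |f v| ≤ B * (tot v / 3))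
    (hL : IsStoch L) : |fval f L| ≤ B := by
  refine (Finset.abs_sum_le_sum_abs _ _).trans
    ((Finset.sum_le_sum fun η _ => hB _ (hL.1 η)).trans (le_of_eq ?_))
  rw [← Finset.mul_sum, sum_tot_third hL, mul_one]

theorem fval_rf_lin (c : ℝ) : fval (rf fun r => h r + c * h' r) L =
    fval (rf h) L + c * fval (rf h') L := by
  simp only [fval, rf, Finset.mul_sum, ← Finset.sum_add_distrib]
  exact Finset.sum_congr rfl fun η _ => by ring

/-- Perspectives of convex functions of one coordinate are sublinear. -/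
theorem sublin_rf {g : ℝ → ℝ} (hg : ConvexOn ℝ (Set.Icc (-1) 2) g) :
    Sublin (rf fun r => ∑ i, g (r i)) where
  smul c v _ _ := rf_smul _ c v
  add u v hu hv := by
    rcases (tot_nonneg hu).eq_or_lt with tu | tu
    · rw [eq_zero_of_tot hu tu.symm, zero_add]
      simp [rf, tot]
    rcases (tot_nonneg hv).eq_or_lt with tv | tv
    · rw [eq_zero_of_tot hv tv.symm, add_zero]
      simp [rf, tot]
    have ht : tot (u + v) = tot u + tot v := by simp [tot]; ring
    simp only [rf, Finset.mul_sum, ← Finset.sum_add_distrib]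
    refine Finset.sum_le_sum fun i _ => ?_
    have hs : 0 < tot u + tot v := add_pos tu tv
    have hc := hg.2 ((inSlice_rr hu tu).1 i) ((inSlice_rr hv tv).1 i)
      (div_nonneg tu.le hs.le) (div_nonneg tv.le hs.le) (by field_simp)
    have e : rr (u + v) i = tot u / (tot u + tot v) * rr u i + tot v / (tot u + tot v) * rr v i := by
      simp only [rr, ht, Pi.add_apply]
      field_simp
      ring
    simp only [smul_eq_mul] at hc
    rw [e, ht]
    refine (mul_le_mul_of_nonneg_left hc (by linarith)).trans (le_of_eq ?_)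
    field_simp

theorem convexOn_of_gap {g : ℝ → ℝ}
    (hg : ∀ x ∈ Set.Icc (-1 : ℝ) 2, ∀ y ∈ Set.Icc (-1 : ℝ) 2, ∀ a b : ℝ, 0 ≤ a → 0 ≤ b →
      a + b = 1 → g (a * x + b * y) ≤ a * g x + b * g y) : ConvexOn ℝ (Set.Icc (-1) 2) g :=
  ⟨convex_Icc _ _, fun x hx y hy a b ha hb hab => hg x hx y hy a b ha hb hab⟩

theorem convex_sq : ConvexOn ℝ (Set.Icc (-1 : ℝ) 2) fun x => x ^ 2 :=
  (Even.convexOn_pow even_two).subset (Set.subset_univ _) (convex_Icc _ _)

theorem convex_four : ConvexOn ℝ (Set.Icc (-1 : ℝ) 2) fun x => x ^ 4 :=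
  (Even.convexOn_pow ⟨2, rfl⟩).subset (Set.subset_univ _) (convex_Icc _ _)

theorem convex_cube : ConvexOn ℝ (Set.Icc (-1 : ℝ) 2) fun x => x ^ 3 + 3 * x ^ 2 := by
  refine convexOn_of_gap fun x hx y hy a b ha hb hab => ?_
  obtain rfl : b = 1 - a := by linarith
  have hx1 : 0 ≤ x + 1 := by linarith [hx.1]
  have hy1 : 0 ≤ y + 1 := by linarith [hy.1]
  have key := mul_nonneg (mul_nonneg (mul_nonneg ha hb) (sq_nonneg (x - y)))
    (add_nonneg (mul_nonneg (by linarith : 0 ≤ 1 + a) hx1)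
      (mul_nonneg (by linarith : 0 ≤ 2 - a) hy1))
  linarith [show a * (x ^ 3 + 3 * x ^ 2) + (1 - a) * (y ^ 3 + 3 * y ^ 2) -
      ((a * x + (1 - a) * y) ^ 3 + 3 * (a * x + (1 - a) * y) ^ 2) =
    a * (1 - a) * (x - y) ^ 2 * ((1 + a) * (x + 1) + (2 - a) * (y + 1)) by ring]

theorem convex_five : ConvexOn ℝ (Set.Icc (-1 : ℝ) 2) fun x => x ^ 5 + 10 * x ^ 2 := by
  refine convexOn_of_deriv2_nonneg (convex_Icc _ _) (by fun_prop)
    (by fun_prop) (fun x _ => ?_) fun x hx => ?_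
  · rw [show deriv (fun x : ℝ => x ^ 5 + 10 * x ^ 2) = fun x => 5 * x ^ 4 + 20 * x from
      funext fun x => (((hasDerivAt_pow 5 x).add ((hasDerivAt_pow 2 x).const_mul 10)).congr_deriv
        (by ring)).deriv]
    fun_prop
  · rw [interior_Icc] at hx
    rw [Function.iterate_succ, Function.iterate_one, Function.comp_apply,
      show deriv (fun x : ℝ => x ^ 5 + 10 * x ^ 2) = fun x => 5 * x ^ 4 + 20 * x from
      funext fun x => (((hasDerivAt_pow 5 x).add ((hasDerivAt_pow 2 x).const_mul 10)).congr_deriv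
        (by ring)).deriv]
    have h : HasDerivAt (fun y : ℝ => 5 * y ^ 4 + 20 * y) (20 * x ^ 3 + 20) x :=
      (((hasDerivAt_pow 4 x).const_mul 5).add ((hasDerivAt_id x).const_mul 20)).congr_deriv (by ring)
    rw [h.deriv]
    linarith [mul_nonneg (by linarith [hx.1] : 0 ≤ x + 1)
      (add_nonneg (sq_nonneg (x - 1 / 2)) (by norm_num : (0 : ℝ) ≤ 3 / 4)),
      show (x + 1) * ((x - 1 / 2) ^ 2 + 3 / 4) = x ^ 3 + 1 by ring]

theorem schur_three {a b c : ℝ} (hc : 0 ≤ c) (hcb : c ≤ b) (hba : b ≤ a) :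
    0 ≤ a * (a - b) * (a - c) + b * (b - a) * (b - c) + c * (c - a) * (c - b) := by
  linarith [mul_nonneg (sq_nonneg (a - b)) (by linarith : 0 ≤ a + b - c),
    mul_nonneg (mul_nonneg hc (by linarith : 0 ≤ a - c)) (by linarith : 0 ≤ b - c),
    show (a - b) ^ 2 * (a + b - c) + c * (a - c) * (b - c) =
      a * (a - b) * (a - c) + b * (b - a) * (b - c) + c * (c - a) * (c - b) by ring]

theorem slice_bounds {r : Fin 3 → ℝ} (hr : InSlice r) :
    0 ≤ P2 r ∧ P2 r ≤ 6 ∧ -(P2 r / 2) ≤ P3 r ∧ P3 r ≤ P2 r := by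
  obtain ⟨hb, hs⟩ := hr
  obtain ⟨a0, b0⟩ := hb 0
  obtain ⟨a1, b1⟩ := hb 1
  obtain ⟨a2, b2⟩ := hb 2
  have hc : r 2 = -r 0 - r 1 := by linarith
  unfold P2 P3
  rw [hc] at a2 b2 ⊢
  generalize r 0 = x at *
  generalize r 1 = y at *
  have ha : 0 ≤ x + 1 := by linarith
  have hb : 0 ≤ y + 1 := by linarith
  have he : 0 ≤ -x - y + 1 := by linarith
  refine ⟨by positivity, ?_, ?_, ?_⟩
  · linarith [mul_nonneg ha hb, mul_nonneg ha he, mul_nonneg hb he]
  · have key : 0 ≤ (x + 1) * (x - y) * (x - (-x - y)) + (y + 1) * (y - x) * (y - (-x - y)) +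
        (-x - y + 1) * (-x - y - x) * (-x - y - y) := by
      rcases le_total x y with h₁ | h₁ <;> rcases le_total x (-x - y) with h₂ | h₂ <;>
        rcases le_total y (-x - y) with h₃ | h₃ <;>
        first
        | linarith [schur_three (a := x + 1) (b := y + 1) (c := -x - y + 1) he (by linarith) (by linarith)]
        | linarith [schur_three (a := x + 1) (b := -x - y + 1) (c := y + 1) hb (by linarith) (by linarith)]
        | linarith [schur_three (a := y + 1) (b := x + 1) (c := -x - y + 1) he (by linarith) (by linarith)]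
        | linarith [schur_three (a := y + 1) (b := -x - y + 1) (c := x + 1) ha (by linarith) (by linarith)]
        | linarith [schur_three (a := -x - y + 1) (b := x + 1) (c := y + 1) hb (by linarith) (by linarith)]
        | linarith [schur_three (a := -x - y + 1) (b := y + 1) (c := x + 1) ha (by linarith) (by linarith)]
    linarith
  · linarith [mul_nonneg ha (sq_nonneg (y - (-x - y))), mul_nonneg hb (sq_nonneg (x - (-x - y))),
      mul_nonneg he (sq_nonneg (x - y))]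

theorem homB_P2 : HomB (rf P2) := homB_rf (B := 36) fun _ hr => by
  obtain ⟨a, b, -, -⟩ := slice_bounds hr
  rw [abs_le]; constructor <;> linarith
theorem homB_P3 : HomB (rf P3) := homB_rf (B := 36) fun _ hr => by
  obtain ⟨a, b, c, e⟩ := slice_bounds hr
  rw [abs_le]; constructor <;> linarith
theorem homB_P4 : HomB (rf P4) := homB_rf (B := 36) fun _ hr => by
  obtain ⟨a, b, -, -⟩ := slice_bounds hr
  rw [P4, abs_of_nonneg (sq_nonneg _)]; nlinarith
theorem homB_P5 : HomB (rf P5) := homB_rf (B := 36) fun _ hr => by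
  obtain ⟨a, b, c, e⟩ := slice_bounds hr
  rw [P5, abs_le]; constructor <;> nlinarith

/-- Exponents of a monomial in three variables. -/
abbrev Exp3 := ℕ × ℕ × ℕ

/-- A monomial. -/
def monL (a : Exp3) (l : Fin 3 → ℝ) : ℝ := l 0 ^ a.1 * l 1 ^ a.2.1 * l 2 ^ a.2.2

/-- A polynomial given by a list of monomials with rational coefficients. -/
def evalP (ms : List (Exp3 × ℚ)) (l : Fin 3 → ℝ) : ℝ :=
  (ms.map fun p => (p.2 : ℝ) * monL p.1 l).sum

/-- The functional behind the moment `E Π (1 + λ r_i)^(a_i)`. -/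
noncomputable def phiA (lam : ℝ) (a : Exp3) : (Fin 3 → ℝ) → ℝ :=
  rf fun r => monL a fun i => 1 + lam * r i

/-- The linear form by which that moment differs from `1`, for a colour-symmetric channel. -/
def S4 {K : Type} [Field K] (a : Exp3) (x y z w : K) : K :=
  let c : ℕ → ℕ → K := fun n j => (n.choose j : K)
  let i := a.1
  let j := a.2.1
  let k := a.2.2
  ((c i 2 + c j 2 + c k 2) / 3 - (c i 1 * c j 1 + c i 1 * c k 1 + c j 1 * c k 1) / 6) * x +
  ((c i 3 + c j 3 + c k 3) / 3 - (c i 2 * c j 1 + c i 1 * c j 2 + c i 2 * c k 1 + c i 1 * c k 2 +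
      c j 2 * c k 1 + c j 1 * c k 2) / 6 + c i 1 * c j 1 * c k 1 / 3) * y +
  ((c i 4 + c j 4 + c k 4) / 6 - (c i 3 * c j 1 + c i 1 * c j 3 + c i 3 * c k 1 + c i 1 * c k 3 +
      c j 3 * c k 1 + c j 1 * c k 3) / 12 +
    (c i 2 * c j 2 + c i 2 * c k 2 + c j 2 * c k 2) / 12) * z +
  (5 * (c i 5 + c j 5 + c k 5) / 18 - 5 * (c i 4 * c j 1 + c i 1 * c j 4 + c i 4 * c k 1 +
      c i 1 * c k 4 + c j 4 * c k 1 + c j 1 * c k 4) / 36 +
    (c i 3 * c j 2 + c i 2 * c j 3 + c i 3 * c k 2 + c i 2 * c k 3 + c j 3 * c k 2 +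
      c j 2 * c k 3) / 36 +
    (c i 3 * c j 1 * c k 1 + c i 1 * c j 3 * c k 1 + c i 1 * c j 1 * c k 3) / 9 -
    (c i 2 * c j 2 * c k 1 + c i 2 * c j 1 * c k 2 + c i 1 * c j 2 * c k 2) / 18) * w

/-- The six-permutation average of one monomial. -/
theorem six_avg (a : Exp3) (ha : a.1 + a.2.1 + a.2.2 ≤ 5) (lam : ℝ) (r : Fin 3 → ℝ)
    (hr : r 0 + r 1 + r 2 = 0) :
    ∑ k, monL a (fun i => 1 + lam * r (six k i)) =
      6 * (1 + S4 a (lam ^ 2 * P2 r) (lam ^ 3 * P3 r) (lam ^ 4 * P4 r) (lam ^ 5 * P5 r)) := by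
  obtain ⟨i, j, k⟩ := a
  simp only at ha
  have hc : r 2 = -r 0 - r 1 := by linarith
  simp only [Fin.sum_univ_six, six, monL, S4, P5, P4, P2, P3, Matrix.cons_val]
  rw [hc]
  have hi : i ≤ 5 := by omega
  interval_cases i <;> (have hj : j ≤ 5 := by omega) <;> interval_cases j <;>
    (have hk : k ≤ 5 := by omega) <;> interval_cases k <;>
    first | omega | (norm_num [Nat.choose]; try ring)

end Vale.Agent.P154.Q3
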