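import Vale.Agent.P154.End.Limit

/-!
# From the limit inequalities to vanishing advantage

With `μ` bounding `|λ|` and `d λ² ≤ 1` the limit inequalities become the inequalities of `ScaledPt`
in `δ = d λ² P`, `ρ = d λ³ R`, `α = d λ⁴ A`, `β = d λ⁵ B`, with no other parameter left.
-/

namespace Vale.Agent.P154.Q3

open scoped BigOperators Topology
open Filter

variable {d lam μ : ℝ}

/-- The inequalities in the scaled variables. -/
structure ScaledPt (N : List (Exp3 × ℚ) → ℝ → ℝ → ℝ → ℝ → ℝ) (μ δ ρ α β : ℝ) : Prop where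
  δ0 : 0 ≤ δ
  ρ0 : -(μ * δ) ≤ ρ
  ρ1 : ρ ≤ μ / 2 * δ
  α0 : 0 ≤ α
  α1 : α ≤ 6 * μ ^ 2 * δ
  β0 : -(μ * α) ≤ β
  β1 : β ≤ μ / 2 * α
  two : ∀ ms, Maj P2 ms → δ ≤ N ms δ ρ α β
  four : ∀ ms, Maj P4 ms → α ≤ μ ^ 2 * N ms δ ρ α β
  upper : ∀ ms, Maj P3 ms → -(μ * max (N ms δ ρ α β) 0) ≤ ρ
  lower : ∀ ms, Maj (fun r => -P3 r) ms → ρ ≤ μ * max (N ms δ ρ α β) 0

theorem LimPt.scaled {N : List (Exp3 × ℚ) → ℝ → ℝ → ℝ → ℝ → ℝ} {P R A B : ℝ}
    (h : LimPt N d lam P R A B) (hd : 0 ≤ d) (hμ : -μ ≤ lam) (h1 : lam ≤ 0)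
    (hKS : d * lam ^ 2 ≤ 1) :
    ScaledPt N μ (d * lam ^ 2 * P) (d * lam ^ 3 * R) (d * lam ^ 4 * A) (d * lam ^ 5 * B) := by
  obtain ⟨P0, R0, R1, A0, A1, B0, B1⟩ := h.box
  have hs : 0 ≤ d * lam ^ 2 := mul_nonneg hd (sq_nonneg lam)
  have hm : 0 ≤ μ := by linarith
  have hl2 : lam ^ 2 ≤ μ ^ 2 := by nlinarith
  have hs4 : 0 ≤ d * lam ^ 4 := by positivity
  have k3 : 0 ≤ -(d * lam ^ 3) ∧ -(d * lam ^ 3) ≤ μ * (d * lam ^ 2) := by
    have h₁ := mul_nonneg hs (by linarith : 0 ≤ -lam)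
    have h₂ := mul_nonneg hs (by linarith : 0 ≤ μ + lam)
    constructor <;> linarith [show d * lam ^ 3 = d * lam ^ 2 * lam by ring]
  have k3' : -(d * lam ^ 3) ≤ μ :=
    k3.2.trans (mul_le_of_le_one_right hm hKS)
  have k5 : 0 ≤ -(d * lam ^ 5) ∧ -(d * lam ^ 5) ≤ μ * (d * lam ^ 4) := by
    have h₁ := mul_nonneg hs4 (by linarith : 0 ≤ -lam)
    have h₂ := mul_nonneg hs4 (by linarith : 0 ≤ μ + lam)
    constructor <;> linarith [show d * lam ^ 5 = d * lam ^ 4 * lam by ring]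
  have hα : d * lam ^ 4 * A ≤ lam ^ 2 * A := by
    have := mul_le_mul_of_nonneg_right hKS (mul_nonneg (sq_nonneg lam) A0)
    linarith [show d * lam ^ 4 * A = d * lam ^ 2 * (lam ^ 2 * A) by ring]
  constructor
  · exact mul_nonneg hs P0
  · have := mul_le_mul_of_nonneg_left R1 k3.1
    have := mul_le_mul_of_nonneg_right k3.2 P0
    linarith
  · have := mul_le_mul_of_nonneg_left R0 k3.1
    have := mul_le_mul_of_nonneg_right k3.2 P0
    linarith
  · exact mul_nonneg hs4 A0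
  · have := mul_le_mul_of_nonneg_left A1 hs4
    have := mul_le_mul_of_nonneg_left hl2 (mul_nonneg (by norm_num : (0 : ℝ) ≤ 6) (mul_nonneg hs P0))
    linarith
  · have := mul_le_mul_of_nonneg_left B1 k5.1
    have := mul_le_mul_of_nonneg_right k5.2 A0
    linarith
  · have := mul_le_mul_of_nonneg_left B0 k5.1
    have := mul_le_mul_of_nonneg_right k5.2 A0
    linarith
  · intro ms hms
    exact (mul_le_of_le_one_left P0 hKS).trans (h.two ms hms)
  · intro ms hms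
    exact hα.trans ((mul_le_mul_of_nonneg_right hl2 A0).trans
      (mul_le_mul_of_nonneg_left (h.four ms hms) (sq_nonneg μ)))
  · intro ms hms
    have := h.three 1 ms (by simpa using hms)
    push_cast at this
    rw [one_mul] at this
    set M := max (N ms (d * lam ^ 2 * P) (d * lam ^ 3 * R) (d * lam ^ 4 * A) (d * lam ^ 5 * B)) 0
    have h₂ := mul_le_mul_of_nonneg_left (this.trans (le_max_left _ 0)) k3.1
    have h₃ := mul_le_mul_of_nonneg_right k3' (le_max_right _ _ : 0 ≤ M)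
    linarith
  · intro ms hms
    have := h.three (-1) ms (by simpa using hms)
    push_cast at this
    rw [neg_one_mul] at this
    set M := max (N ms (d * lam ^ 2 * P) (d * lam ^ 3 * R) (d * lam ^ 4 * A) (d * lam ^ 5 * B)) 0
    have h₂ := mul_le_mul_of_nonneg_left (this.trans (le_max_left _ 0)) k3.1
    have h₃ := mul_le_mul_of_nonneg_right k3' (le_max_right _ _ : 0 ≤ M)
    linarith

/-- The sum of the squares as a nonnegative sublinear functional. -/
theorem posi_P2 : Posi (rf fun r => ∑ i, r i ^ 2) :=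
  ⟨sublin_rf convex_sq, fun v hv => mul_nonneg (by have := tot_nonneg hv; linarith)
    (Finset.sum_nonneg fun i _ => sq_nonneg _)⟩

/-- The sum of the fourth powers as a nonnegative sublinear functional. -/
theorem posi_sum_four : Posi (rf fun r => ∑ i, r i ^ 4) :=
  ⟨sublin_rf convex_four, fun v hv => mul_nonneg (by have := tot_nonneg hv; linarith)
    (Finset.sum_nonneg fun i _ => (Even.pow_nonneg ⟨2, rfl⟩ _))⟩

theorem rf_P2_eq (v : Fin 3 → ℝ) : rf P2 v = rf (fun r => ∑ i, r i ^ 2) v := by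
  simp [rf, P2, Fin.sum_univ_three]

theorem rf_P4_eq {v : Fin 3 → ℝ} (hv : ∀ i, 0 ≤ v i) :
    rf P4 v = 2 * rf (fun r => ∑ i, r i ^ 4) v := by
  rw [← rf_const_mul, rf_congr (g := fun r => 2 * ∑ i, r i ^ 4) (fun r hr => ?_) hv]
  have hc : r 2 = -r 0 - r 1 := by linarith [hr.2]
  simp only [P4, P2, Fin.sum_univ_three]; rw [hc]; ring

theorem fval_P2_eq {n : ℕ} (t : RTree n) (h0 : -1 / 2 ≤ lam) (h1 : lam ≤ 1) :
    fval (rf P2) (lik lam n t) = 6 * treeX lam n t := by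
  simp only [fval, treeX, cX, Finset.mul_sum]
  refine Finset.sum_congr rfl fun η _ => ?_
  have hv := (isStoch_lik h0 h1 n t).1 η
  generalize lik lam n t η = v at hv ⊢
  rcases (tot_nonneg hv).eq_or_lt with ht | ht
  · simp [rf, eq_zero_of_tot hv ht.symm, tot, magV, mag, nsq]
  · have ht' : v 0 + v 1 + v 2 ≠ 0 := ne_of_gt ht
    simp only [rf, P2, rr, magV, mag, nsq, tot]
    field_simp
    ring

/-- If the scaled inequalities exclude a positive magnetisation below the bounds certified at some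
depth, there is no reconstruction on Poisson trees. -/
theorem gw_endgame (hd : 0 < d) (hμ : -μ ≤ lam) (hμ2 : μ ≤ 1 / 2) (hn : lam < 0)
    (hKS : d * lam ^ 2 ≤ 1) {P₀ A₀ : ℝ} {N₀ : ℕ}
    (hP₀ : gwAvg d lam N₀ (rf fun r => ∑ i, r i ^ 2) ≤ P₀)
    (hA₀ : 2 * gwAvg d lam N₀ (rf fun r => ∑ i, r i ^ 4) ≤ A₀)
    (hbox : ∀ δ ρ α β, ScaledPt gwNode μ δ ρ α β → δ ≤ P₀ → α ≤ μ ^ 2 * A₀ → δ ≤ 0) :
    Tendsto (aPoisson 3 d lam) atTop (𝓝 0) := by
  have h0 : -1 / 2 ≤ lam := by linarith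
  have h1 : lam ≤ 1 := by linarith
  obtain ⟨P, R, A, B, hP, hA, hL⟩ := gw_limPt hd.le h0 h1
  have s2 := hL.scaled hd.le hμ hn.le hKS
  have anti : ∀ {f : (Fin 3 → ℝ) → ℝ}, Posi f → ∀ n ≥ N₀, gwAvg d lam n f ≤ gwAvg d lam N₀ f :=
    fun hf n hn' => antitone_nat_of_succ_le (f := fun j => gwAvg d lam j _)
      (fun j => gwAvg_succ_le hd.le h0 h1 j hf.toSublin) hn'
  have eP : ∀ n, gwAvg d lam n (rf P2) = gwAvg d lam n (rf fun r => ∑ i, r i ^ 2) := fun n =>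
    tsum_congr fun t => by simp only [fval, rf_P2_eq]
  have eA : ∀ n, gwAvg d lam n (rf P4) = 2 * gwAvg d lam n (rf fun r => ∑ i, r i ^ 4) := fun n => by
    rw [gwAvg, gwAvg, ← tsum_mul_left]
    refine tsum_congr fun t => ?_
    simp only [fval, Finset.mul_sum]
    exact Finset.sum_congr rfl fun η _ => by rw [rf_P4_eq ((isStoch_lik h0 h1 n t).1 η)]; ring
  have bP : P ≤ P₀ := le_of_tendsto hP (eventually_atTop.2 ⟨N₀, fun n hn' => by
    rw [eP]; exact (anti posi_P2 n hn').trans hP₀⟩)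
  have bA : A ≤ A₀ := le_of_tendsto hA (eventually_atTop.2 ⟨N₀, fun n hn' => by
    rw [eA]; linarith [anti posi_sum_four n hn']⟩)
  have hl2 : lam ^ 2 ≤ μ ^ 2 := by nlinarith
  have hz := hbox _ _ _ _ s2 ((mul_le_of_le_one_left hL.box.P0 hKS).trans bP) (by
    have h₁ := mul_le_mul_of_nonneg_right hKS (mul_nonneg (sq_nonneg lam) hL.box.A0)
    have h₂ := mul_le_mul_of_nonneg_right hl2 hL.box.A0
    have h₃ := mul_le_mul_of_nonneg_left bA (sq_nonneg μ)
    linarith)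
  have hpos : 0 < d * lam ^ 2 := mul_pos hd (sq_pos_of_neg hn)
  have hP0 : P = 0 := le_antisymm (nonpos_of_mul_nonpos_right hz hpos) hL.box.P0
  refine tendsto_aPoisson (adm_three' h0 h1) hd.le ?_
  have e : ∀ n, magPoisson 3 d lam n = gwAvg d lam n (rf P2) / 9 := fun n => by
    rw [gwAvg, ← tsum_div_const]
    refine tsum_congr fun t => ?_
    rw [fval_P2_eq t h0 h1, mag_eq, gwWeight_eq]
    ring
  simp only [funext e]
  simpa [hP0] using hP.div_const 9

/-- The same on the regular tree with `k` children. -/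
theorem reg_endgame {k : ℕ} (hk : 0 < k) (hμ : -μ ≤ lam) (hμ2 : μ ≤ 1 / 2) (hn : lam < 0)
    (hKS : (k : ℝ) * lam ^ 2 ≤ 1) {P₀ A₀ : ℝ} {N₀ : ℕ}
    (hP₀ : fval (rf fun r => ∑ i, r i ^ 2) (lik lam N₀ (regTree k N₀)) ≤ P₀)
    (hA₀ : 2 * fval (rf fun r => ∑ i, r i ^ 4) (lik lam N₀ (regTree k N₀)) ≤ A₀)
    (hbox : ∀ δ ρ α β, ScaledPt (regNode k) μ δ ρ α β → δ ≤ P₀ → α ≤ μ ^ 2 * A₀ → δ ≤ 0) :
    Tendsto (aRegular 3 k lam) atTop (𝓝 0) := by
  have h0 : -1 / 2 ≤ lam := by linarith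
  have h1 : lam ≤ 1 := by linarith
  have hd : (0 : ℝ) < k := by exact_mod_cast hk
  obtain ⟨P, R, A, B, hP, hA, hL⟩ := reg_limPt hk h0 h1
  have s2 := hL.scaled hd.le hμ hn.le hKS
  have anti : ∀ {f : (Fin 3 → ℝ) → ℝ}, Posi f → ∀ n ≥ N₀,
      fval f (lik lam n (regTree k n)) ≤ fval f (lik lam N₀ (regTree k N₀)) :=
    fun hf n hn' => antitone_nat_of_succ_le (f := fun j => fval _ (lik lam j (regTree k j)))
      (fun j => dom_regTree_succ h0 h1 k j _ hf.toSublin) hn'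
  have eA : ∀ n, fval (rf P4) (lik lam n (regTree k n)) =
      2 * fval (rf fun r => ∑ i, r i ^ 4) (lik lam n (regTree k n)) := fun n => by
    simp only [fval, Finset.mul_sum]
    exact Finset.sum_congr rfl fun η _ => rf_P4_eq ((isStoch_lik h0 h1 n _).1 η)
  have bP : P ≤ P₀ := le_of_tendsto hP (eventually_atTop.2 ⟨N₀, fun n hn' =>
    (le_of_eq (by simp only [fval, rf_P2_eq])).trans ((anti posi_P2 n hn').trans hP₀)⟩)
  have bA : A ≤ A₀ := le_of_tendsto hA (eventually_atTop.2 ⟨N₀, fun n hn' => by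
    rw [eA]; linarith [anti posi_sum_four n hn']⟩)
  have hl2 : lam ^ 2 ≤ μ ^ 2 := by nlinarith
  have hz := hbox _ _ _ _ s2 ((mul_le_of_le_one_left hL.box.P0 hKS).trans bP) (by
    have h₁ := mul_le_mul_of_nonneg_right hKS (mul_nonneg (sq_nonneg lam) hL.box.A0)
    have h₂ := mul_le_mul_of_nonneg_right hl2 hL.box.A0
    have h₃ := mul_le_mul_of_nonneg_left bA (sq_nonneg μ)
    linarith)
  have hpos : 0 < (k : ℝ) * lam ^ 2 := mul_pos hd (sq_pos_of_neg hn)
  have hP0 : P = 0 := le_antisymm (nonpos_of_mul_nonpos_right hz hpos) hL.box.P0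
  refine tendsto_aRegular (adm_three' h0 h1) ?_
  have e : ∀ n, P154.mag 3 lam n (regular k n) = fval (rf P2) (lik lam n (regTree k n)) / 9 :=
    fun n => by rw [← regTree_eq, mag_eq, fval_P2_eq _ h0 h1]; ring
  simp only [e]
  simpa [hP0] using hP.div_const 9

end Vale.Agent.P154.Q3
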