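import Vale.Agent.P154.End.Expand

/-!
# The box checker of the endgame

For integer class coefficients `c`, an affine part `(q0, q)` and a box of scaled variables
`z_k = (z0_k + δ ^ w_k r_k) / Z`, `Box.check` certifies
`Σ_r c_r F(l_r · z / 36) + q0 + q · z ≤ 0` on the whole box.
-/

namespace Vale.Agent.P154.Q3.End

open scoped BigOperators

/-- A box in parameter form. -/
structure Box where
  mdl : Mdl
  /-- Order of the Taylor expansion. -/
  K : ℕ
  /-- Binary precision of the exponential. -/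
  Q : ℕ
  /-- Common denominator of the variables. -/
  Z : ℕ
  z0 : List ℤ
  /-- Interval of the parameter `δ`. -/
  D : Iv
  cs : List Coord
  /-- The sum is compared after division by `δ ^ s`. -/
  s : ℕ

/-- The variables at a parameter point. -/
noncomputable def Box.point (b : Box) (δ : ℝ) (rs : List ℝ) : List ℝ :=
  List.zipWith (fun (a : ℤ) (y : ℝ) => ((a : ℝ) + y) / b.Z) b.z0 (coordsAt δ b.cs rs)

/-- Whether a power of `δ` is divided out. -/
def Box.e (b : Box) : ℕ := if b.s = 0 then 0 else 1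
/-- Denominator of the linear forms. -/
def Box.D0 (b : Box) : ℕ := 36 * b.Z
/-- Bounds of the coordinates, one power of `δ` kept aside. -/
def Box.mags (b : Box) : List ℤ :=
  b.cs.map fun c =>
    Int.mul (b.D.2 ^ (c.1 - b.e)) ((max c.2.1.natAbs c.2.2.natAbs : ℕ) : ℤ)
/-- Centre of a linear form. -/
def Box.cen (b : Box) (l : List ℤ) : ℤ := dotI l b.z0
/-- Radius of a linear form, one power of `δ` kept aside. -/
def Box.rad1 (b : Box) (l : List ℤ) : ℤ := dotI (l.map fun x => (x.natAbs : ℤ)) b.mags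
/-- Binomial coefficient by factorials. -/
def binom (n k : ℕ) : ℕ := n.descFactorial k / k.factorial

/-- Taylor coefficients and remainder of one class. -/
def Box.row (b : Box) (c : ℤ) (l : List ℤ) : Option (List ℤ × ℤ) :=
  match b.mdl with
  | .poisson =>
    withInt (b.cen l) fun A => withInt (b.rad1 l) fun R =>
    match expPair A b.D0 b.Q with
    | none => none
    | some I =>
      withInt I.1 fun u1 => withInt I.2 fun u2 =>
      if 2 * (b.D.2 ^ b.e * R) ≤ ((b.K : ℤ) + 1) * b.D0 ∧ (u1 = u2 ∨ b.s = 0) then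
        some ((List.range b.K).map fun j => c * (u1 *
              (((b.K - 1).descFactorial (b.K - 1 - j) : ℕ) : ℤ) * (b.D0 : ℤ) ^ (b.K - 1 - j)),
          (c.natAbs : ℤ) * ((u2 - u1) * ((List.range b.K).map fun j =>
              (((b.K - 1).descFactorial (b.K - 1 - j) : ℕ) : ℤ) * (b.D0 : ℤ) ^ (b.K - 1 - j) *
                (b.D.2 ^ b.e * R) ^ j).sum +
            ((u2 * 2 * R ^ b.K * b.D.2 ^ (b.e * b.K - b.s)) / ((b.K : ℤ) * b.D0) + 1)))
      else none
  | .regular d =>
    withInt ((d : ℤ) * b.D0 + b.cen l) fun B => withInt (b.rad1 l) fun R =>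
    some ((List.range b.K).map fun j =>
        c * ((binom d j : ℕ) : ℤ) * B ^ (d - j),
      (c.natAbs : ℤ) * ((binom d b.K : ℕ) : ℤ) * R ^ b.K * b.D.2 ^ (b.e * b.K - b.s) *
        ((B.natAbs : ℤ) + b.D.2 ^ b.e * R) ^ (d - b.K))

/-- All classes. -/
def Box.rows (b : Box) : List ℤ → List (List ℤ) → Option (List (List ℤ × ℤ))
  | [], [] => some []
  | c :: cc, l :: ls =>
    match b.row c l, b.rows cc ls with
    | some x, some xs => some (x :: xs)
    | _, _ => none
  | _, _ => none

/-- The scale of the check divided by the denominator of the variables. -/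
def Box.scaleZ (b : Box) : ℤ :=
  match b.mdl with
  | .poisson => (2 : ℤ) ^ b.Q * ((b.K - 1).factorial : ℤ) * 36 * (b.D0 : ℤ) ^ (b.K - 2)
  | .regular d => 36 * (d : ℤ) * ((d : ℤ) * b.D0) ^ (d - 1)

/-- The affine part on one layer. -/
def Box.affine (b : Box) (q0 : ℤ) (q : List ℤ) : ℕ → List ℕ → ℤ
  | 0, _ => b.scaleZ * (q0 * b.Z + dotI q b.z0)
  | 1, m => b.scaleZ * dotN m q
  | _ + 2, _ => 0

/-- The layers from degree `j` on. -/
def Box.layers (b : Box) (g : List (List ℤ × ℤ)) (q0 : ℤ) (q : List ℤ) : ℕ → List Layer → Option ℤ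
  | _, [] => some 0
  | j, W :: Ws =>
    match withList (g.map fun x => x.1.getD j 0)
        (fun col => layerHi b.D b.s b.cs col (b.affine q0 q j) W),
      b.layers g q0 q (j + 1) Ws with
    | some u, some v => some (Int.add u v)
    | _, _ => none

/-- Shape conditions. -/
def Box.wf (b : Box) (c : List ℤ) (q : List ℤ) : Bool :=
  decide (2 ≤ b.K ∧ b.K ≤ 8 ∧ 0 < b.Z ∧ 0 ≤ b.D.1 ∧ c.length = 14 ∧ q.length = 4 ∧
      b.z0.length = 4 ∧ b.cs.length = 4 ∧ b.s ≤ b.e * b.K) &&
    b.cs.all (fun x => decide (b.e ≤ x.1)) &&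
    (match b.mdl with
    | .poisson => true
    | .regular d => decide (0 < d))

/-- The checked upper value. -/
def Box.value (b : Box) (c : List ℤ) (q0 : ℤ) (q : List ℤ) : Option ℤ :=
  match b.rows c cls with
  | none => none
  | some g0 => withRows g0 fun g =>
    match b.layers g q0 q 0 (powTbl.take b.K) with
    | none => none
    | some u => some (u + (g.map fun x => x.2).sum)

/-- The check. -/
def Box.check (b : Box) (c : List ℤ) (q0 : ℤ) (q : List ℤ) : Bool :=
  b.wf c q &&
    match b.value c q0 q with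
    | none => false
    | some u => decide (u ≤ 0)

/-! ### Soundness -/

/-- The scale of the check. -/
noncomputable def Box.scale (b : Box) : ℝ :=
  match b.mdl with
  | .poisson => (2 : ℝ) ^ b.Q * ((b.K - 1).factorial : ℕ) * (b.D0 : ℝ) ^ (b.K - 1)
  | .regular d => ((d : ℝ) * b.D0) ^ d

theorem binom_eq (n k : ℕ) : binom n k = n.choose k :=
  (Nat.choose_eq_descFactorial_div_factorial n k).symm

theorem dotI_nonneg : ∀ {a b : List ℤ}, (∀ x ∈ a, 0 ≤ x) → (∀ x ∈ b, 0 ≤ x) → 0 ≤ dotI a b
  | [], _, _, _ => by simp [dotI]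
  | x :: a, [], _, _ => by simp [dotI]
  | x :: a, y :: b, ha, hb => by
    simp only [dotI, Int.add_def, Int.mul_def]
    exact add_nonneg (mul_nonneg (ha x (by simp)) (hb y (by simp)))
      (dotI_nonneg (fun z hz => ha z (by simp [hz])) fun z hz => hb z (by simp [hz]))

theorem abs_dotL_le (δ : ℝ) (Dh : ℤ) (e : ℕ) (h0 : 0 ≤ δ) (hδ : δ ≤ Dh) :
    ∀ (cs : List Coord) (rs : List ℝ) (l : List ℤ), InCoords cs rs →
      (∀ x ∈ cs, e ≤ x.1) →
      |dotL l (coordsAt δ cs rs)| ≤ δ ^ e * (dotI (l.map fun x => (x.natAbs : ℤ))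
        (cs.map fun c => Int.mul (Dh ^ (c.1 - e)) ((max c.2.1.natAbs c.2.2.natAbs : ℕ) : ℤ)) : ℤ)
  | [], rs, l, _, _ => by
    cases l <;> simp [coordsAt, dotL, dotI]
  | c :: cs, [], l, h, _ => absurd h (by simp [InCoords])
  | c :: cs, r :: rs, [], _, _ => by simp [dotL, dotI]
  | c :: cs, r :: rs, a :: l, h, hw => by
    have ih := abs_dotL_le δ Dh e h0 hδ cs rs l h.2 fun x hx => hw x (by simp [hx])
    simp only [List.map_cons, dotI, Int.add_def, Int.mul_def, coordsAt, dotL] at ih ⊢
    push_cast at ih ⊢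
    rw [mul_add]
    refine (abs_add_le _ _).trans (add_le_add ?_ ih)
    have hr : |r| ≤ max (c.2.1.natAbs : ℝ) (c.2.2.natAbs : ℝ) := by
      rw [abs_le]
      have h1 := h.1.1
      have h2 := h.1.2
      have a1 : -((c.2.1.natAbs : ℝ)) ≤ (c.2.1 : ℝ) := by
        rw [Nat.cast_natAbs, Int.cast_abs]; exact neg_abs_le _
      have a2 : (c.2.2 : ℝ) ≤ (c.2.2.natAbs : ℝ) := by
        rw [Nat.cast_natAbs, Int.cast_abs]; exact le_abs_self _
      exact ⟨by linarith [le_max_left (c.2.1.natAbs : ℝ) (c.2.2.natAbs : ℝ)],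
        by linarith [le_max_right (c.2.1.natAbs : ℝ) (c.2.2.natAbs : ℝ)]⟩
    have hp : δ ^ c.1 ≤ δ ^ e * (Dh : ℝ) ^ (c.1 - e) := by
      rw [show δ ^ c.1 = δ ^ e * δ ^ (c.1 - e) by rw [← pow_add, Nat.add_sub_cancel' (hw c (by simp))]]
      exact mul_le_mul_of_nonneg_left (pow_le_pow_left₀ h0 hδ _) (pow_nonneg h0 _)
    rw [abs_mul, abs_mul, abs_of_nonneg (pow_nonneg h0 _)]
    simp only [Nat.cast_natAbs, Int.cast_abs] at hr ⊢
    calc |(a : ℝ)| * (δ ^ c.1 * |r|)
        ≤ |(a : ℝ)| * (δ ^ e * (Dh : ℝ) ^ (c.1 - e) * max |(c.2.1 : ℝ)| |(c.2.2 : ℝ)|) := by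
          gcongr
          exact le_trans (pow_nonneg h0 _) hp
      _ = _ := by ring

theorem dotL_point (Z : ℕ) : ∀ (l z0 : List ℤ) (ys : List ℝ), z0.length = ys.length →
    dotL l (List.zipWith (fun (a : ℤ) (y : ℝ) => ((a : ℝ) + y) / Z) z0 ys) =
      ((dotI l z0 : ℤ) + dotL l ys) / Z
  | [], z0, ys, _ => by simp [dotL, dotI]
  | a :: l, [], [], _ => by simp [dotL, dotI]
  | a :: l, z :: z0, y :: ys, h => by
    have h' : z0.length = ys.length := by simpa using h
    simp only [List.zipWith_cons_cons, dotL, dotI, dotL_point Z l z0 ys h', Int.add_def, Int.mul_def]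
    push_cast
    ring

theorem coordsAt_length (δ : ℝ) : ∀ (cs : List Coord) (rs : List ℝ), InCoords cs rs →
    (coordsAt δ cs rs).length = cs.length
  | [], rs, _ => by simp [coordsAt]
  | c :: cs, [], h => absurd h (by simp [InCoords])
  | c :: cs, r :: rs, h => by simp [coordsAt, coordsAt_length δ cs rs h.2]

theorem map_range_getD (f : ℕ → ℤ) {K j : ℕ} (hj : j < K) :
    ((List.range K).map f).getD j 0 = f j := by
  simp [List.getD_eq_getElem?_getD, hj]

variable {b : Box} {δ : ℝ} {rs : List ℝ}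

theorem Box.row_sound (hK : 2 ≤ b.K) (hZ : 0 < b.Z) (h0 : 0 ≤ δ) (hδ : b.D.Mem δ)
    (hs : b.s ≤ b.e * b.K) (hw : ∀ x ∈ b.cs, b.e ≤ x.1) (hr : InCoords b.cs rs)
    (hz : b.z0.length = b.cs.length) {c : ℤ} {l : List ℤ} {g : List ℤ} {err : ℤ}
    (h : b.row c l = some (g, err)) :
    b.scale * ((c : ℝ) * b.mdl.F (dotL l (b.point δ rs) / 36)) ≤
      (∑ j ∈ Finset.range b.K, (g.getD j 0 : ℝ) * dotL l (coordsAt δ b.cs rs) ^ j) +
        δ ^ b.s * err := by
  set t := dotL l (coordsAt δ b.cs rs) with ht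
  set A := b.cen l with hA
  have hpt : dotL l (b.point δ rs) / 36 = ((A : ℝ) + t) / b.D0 := by
    rw [Box.point, dotL_point b.Z l b.z0 _ (hz.trans (coordsAt_length δ _ _ hr).symm), Box.D0, ht, hA,
      Box.cen]
    push_cast
    rw [div_div, mul_comm]
  have hD0 : (0 : ℝ) < b.D0 := by
    have : 0 < b.D0 := by unfold Box.D0; omega
    exact_mod_cast this
  set R1 : ℝ := (b.rad1 l : ℝ) with hR1
  have hDh : (0 : ℝ) ≤ (b.D.2 : ℝ) := h0.trans hδ.2
  have hR10 : 0 ≤ R1 := by
    have : 0 ≤ b.rad1 l := by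
      refine dotI_nonneg (fun x hx => ?_) fun x hx => ?_
      · obtain ⟨y, _, rfl⟩ := List.mem_map.1 hx; exact Int.natCast_nonneg _
      · obtain ⟨y, _, rfl⟩ := List.mem_map.1 hx
        simp only [Int.mul_def]
        exact mul_nonneg (pow_nonneg (by exact_mod_cast hDh) _) (Int.natCast_nonneg _)
    rw [hR1]
    exact_mod_cast this
  have htb : |t| ≤ δ ^ b.e * R1 := abs_dotL_le δ b.D.2 b.e h0 hδ.2 _ _ l hr hw
  set T : ℝ := (b.D.2 : ℝ) ^ b.e * R1 with hT
  have htT : |t| ≤ T := htb.trans (mul_le_mul_of_nonneg_right (pow_le_pow_left₀ h0 hδ.2 _) hR10)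
  have htK : |t| ^ b.K ≤ δ ^ b.s * (R1 ^ b.K * (b.D.2 : ℝ) ^ (b.e * b.K - b.s)) := by
    refine (pow_le_pow_left₀ (abs_nonneg t) htb _).trans ?_
    rw [mul_pow, ← pow_mul]
    calc δ ^ (b.e * b.K) * R1 ^ b.K = δ ^ b.s * (δ ^ (b.e * b.K - b.s) * R1 ^ b.K) := by
          rw [← mul_assoc, ← pow_add, Nat.add_sub_cancel' hs]
      _ ≤ δ ^ b.s * ((b.D.2 : ℝ) ^ (b.e * b.K - b.s) * R1 ^ b.K) := by
          gcongr
          exact hδ.2
      _ = _ := by ring
  rw [hpt]
  unfold Box.row at h
  simp only [withInt_eq] at h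
  rcases hm : b.mdl with _ | d <;> rw [hm] at h <;> simp only at h
  · split at h
    · simp at h
    · rename_i I hI
      split_ifs at h with hc
      simp only [Option.some.injEq, Prod.mk.injEq] at h
      obtain ⟨rfl, rfl⟩ := h
      obtain ⟨hI0, hIm⟩ := expPair_sound hI
      obtain ⟨hc1, hc2⟩ := hc
      set u : ℝ := (2 : ℝ) ^ b.Q * Real.exp ((A : ℝ) / b.D0) with hu
      have hu0 : 0 ≤ u := by rw [hu]; positivity
      have hI0' : (0 : ℝ) ≤ I.1 := by exact_mod_cast hI0
      have hc1' : 2 * T ≤ ((b.K : ℝ) + 1) * b.D0 := by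
        have := (Int.cast_le (R := ℝ)).2 hc1
        push_cast at this
        rw [hT]; exact this
      have htr := exp_trunc (t := t / b.D0) (T := |t| / b.D0) (K := b.K)
        (by rw [abs_div, abs_of_pos hD0])
        (by rw [mul_div_assoc', div_le_iff₀ hD0]; linarith)
      set f : ℕ → ℝ := fun j =>
        (((b.K - 1).descFactorial (b.K - 1 - j) : ℕ) : ℝ) * (b.D0 : ℝ) ^ (b.K - 1 - j) with hf
      set S0 : ℝ := ((b.K - 1).factorial : ℕ) * (b.D0 : ℝ) ^ (b.K - 1) with hS0
      have hSj : ∀ j ∈ Finset.range b.K,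
          S0 * ((t / b.D0) ^ j / (j.factorial : ℕ)) = f j * t ^ j := by
        intro j hj
        rw [Finset.mem_range] at hj
        have e1 : (b.K - 1).factorial =
            j.factorial * (b.K - 1).descFactorial (b.K - 1 - j) := by
          have := Nat.factorial_mul_descFactorial (show b.K - 1 - j ≤ b.K - 1 by omega)
          rw [show b.K - 1 - (b.K - 1 - j) = j by omega] at this
          exact this.symm
        have e2 : (b.D0 : ℝ) ^ (b.K - 1) = (b.D0 : ℝ) ^ (b.K - 1 - j) * (b.D0 : ℝ) ^ j := by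
          rw [← pow_add]; congr 1; omega
        have hj0 : (j.factorial : ℝ) ≠ 0 := by exact_mod_cast j.factorial_ne_zero
        rw [hS0, hf, e1, e2, div_pow]
        push_cast
        field_simp
      have hrem : |S0 * Real.exp (t / b.D0) - ∑ j ∈ Finset.range b.K, f j * t ^ j| ≤
          2 * |t| ^ b.K / ((b.K : ℝ) * b.D0) := by
        rw [← Finset.sum_congr rfl hSj, ← Finset.mul_sum, ← mul_sub, abs_mul]
        have hS0p : 0 ≤ S0 := by rw [hS0]; positivity
        rw [abs_of_nonneg hS0p]
        refine (mul_le_mul_of_nonneg_left htr hS0p).trans (le_of_eq ?_)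
        obtain ⟨k, hk⟩ : ∃ k, b.K = k + 1 := ⟨b.K - 1, by omega⟩
        rw [hS0, hk, Nat.add_sub_cancel, Nat.factorial_succ, div_pow]
        push_cast
        have : (k.factorial : ℝ) ≠ 0 := by exact_mod_cast k.factorial_ne_zero
        field_simp
        ring
      have hF : b.scale * ((c : ℝ) * Mdl.F .poisson (((A : ℝ) + t) / b.D0)) =
          (c : ℝ) * (u * (S0 * Real.exp (t / b.D0))) := by
        simp only [Box.scale, hm, Mdl.F, hu, hS0]
        rw [add_div, Real.exp_add]; ring
      rw [hF, Finset.sum_congr rfl (g := fun j => (c : ℝ) * ((I.1 : ℝ) * (f j * t ^ j))) (fun j hj => by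
        rw [map_range_getD _ (Finset.mem_range.1 hj)]; simp only [hf]; push_cast; ring),
        ← Finset.mul_sum, ← Finset.mul_sum]
      set Sm := ∑ j ∈ Finset.range b.K, f j * t ^ j with hSm
      set P : ℝ := ∑ j ∈ Finset.range b.K, f j * T ^ j with hP
      have hSmP : |Sm| ≤ P := by
        refine (Finset.abs_sum_le_sum_abs _ _).trans (Finset.sum_le_sum fun j _ => ?_)
        rw [abs_mul, abs_pow, abs_of_nonneg (by simp only [hf]; positivity)]
        exact mul_le_mul_of_nonneg_left (pow_le_pow_left₀ (abs_nonneg t) htT j)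
          (by simp only [hf]; positivity)
      have hdev : |u * (S0 * Real.exp (t / b.D0)) - (I.1 : ℝ) * Sm| ≤
          ((I.2 : ℝ) - I.1) * P + (I.2 : ℝ) * (2 * |t| ^ b.K / ((b.K : ℝ) * b.D0)) := by
        rw [show u * (S0 * Real.exp (t / b.D0)) - (I.1 : ℝ) * Sm =
          u * (S0 * Real.exp (t / b.D0) - Sm) + (u - I.1) * Sm by ring]
        refine (abs_add_le _ _).trans ?_
        rw [abs_mul u, abs_mul (u - I.1), abs_of_nonneg hu0, abs_of_nonneg (sub_nonneg.2 hIm.1), add_comm]
        refine add_le_add (mul_le_mul (by linarith [hIm.2]) hSmP (abs_nonneg _)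
          (by linarith [hIm.1, hIm.2])) (mul_le_mul hIm.2 hrem (abs_nonneg _) (hu0.trans hIm.2))
      set N : ℤ := I.2 * 2 * b.rad1 l ^ b.K * b.D.2 ^ (b.e * b.K - b.s) with hN
      have hKD : (0 : ℤ) < (b.K : ℤ) * b.D0 := by
        have : 0 < b.D0 := by unfold Box.D0; omega
        positivity
      have hediv : (N : ℝ) / ((b.K : ℝ) * b.D0) ≤ ((N / ((b.K : ℤ) * b.D0) + 1 : ℤ) : ℝ) := by
        rw [div_le_iff₀ (by positivity)]
        have := (Int.lt_ediv_add_one_mul_self N hKD).le
        have := (Int.cast_le (R := ℝ)).2 this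
        push_cast at this ⊢
        exact this
      have hdiff : ((I.2 : ℝ) - I.1) * P = δ ^ b.s * (((I.2 : ℝ) - I.1) * P) := by
        rcases hc2 with hEq | hs0
        · simp [hEq]
        · simp [hs0]
      have hN' : (I.2 : ℝ) * (2 * |t| ^ b.K / ((b.K : ℝ) * b.D0)) ≤
          δ ^ b.s * ((N / ((b.K : ℤ) * b.D0) + 1 : ℤ) : ℝ) := by
        refine le_trans ?_ (mul_le_mul_of_nonneg_left hediv (pow_nonneg h0 _))
        rw [← mul_div_assoc, ← mul_div_assoc]
        refine div_le_div_of_nonneg_right ?_ (by positivity)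
        rw [hN]
        push_cast
        calc (I.2 : ℝ) * (2 * |t| ^ b.K)
            ≤ (I.2 : ℝ) * (2 * (δ ^ b.s * (R1 ^ b.K * (b.D.2 : ℝ) ^ (b.e * b.K - b.s)))) :=
              mul_le_mul_of_nonneg_left (mul_le_mul_of_nonneg_left htK (by norm_num))
                (hu0.trans hIm.2)
          _ = _ := by ring
      have hPc : P = (((List.range b.K).map fun j =>
          (((b.K - 1).descFactorial (b.K - 1 - j) : ℕ) : ℤ) * (b.D0 : ℤ) ^ (b.K - 1 - j) *
            (b.D.2 ^ b.e * b.rad1 l) ^ j).sum : ℤ) := by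
        rw [hP, Int.cast_list_sum, List.map_map, Finset.sum_eq_multiset_sum, Finset.range_val,
          Multiset.range, Multiset.map_coe, Multiset.sum_coe]
        refine congrArg List.sum (List.map_congr_left fun j _ => ?_)
        simp only [Function.comp_apply, hf, hT, hR1]
        push_cast
        ring
      have habs : ((c.natAbs : ℤ) : ℝ) = |(c : ℝ)| := by
        rw [Int.natCast_natAbs, Int.cast_abs]
      have hmain := mul_le_mul_of_nonneg_left
        (hdev.trans (add_le_add hdiff.le hN')) (abs_nonneg (c : ℝ))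
      rw [← abs_mul, mul_sub] at hmain
      have := (le_abs_self _).trans hmain
      rw [hPc] at this
      simp only [Int.cast_mul, Int.cast_add, Int.cast_sub, Int.cast_one, habs, hN] at this ⊢
      linarith
  · simp only [Option.some.injEq, Prod.mk.injEq] at h
    obtain ⟨rfl, rfl⟩ := h
    set B : ℤ := (d : ℤ) * b.D0 + b.cen l with hB
    have htr := binom_trunc (b := (B : ℝ)) (d := d) (K := b.K) (t := t) (T := |t|) le_rfl
    have hF : b.scale * ((c : ℝ) * Mdl.F (.regular d) (((A : ℝ) + t) / b.D0)) =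
        (c : ℝ) * ((B : ℝ) + t) ^ d := by
      rcases Nat.eq_zero_or_pos d with rfl | hd
      · simp [Box.scale, hm, Mdl.F]
      simp only [Box.scale, hm, Mdl.F, hB]
      rw [mul_left_comm, ← mul_pow]
      push_cast
      rw [← hA]
      congr 2
      have : (d : ℝ) ≠ 0 := by exact_mod_cast hd.ne'
      field_simp
      ring
    rw [hF, Finset.sum_congr rfl (g := fun j =>
      (c : ℝ) * ((d.choose j : ℝ) * (B : ℝ) ^ (d - j) * t ^ j)) (fun j hj => by
        rw [map_range_getD _ (Finset.mem_range.1 hj), binom_eq]; push_cast; ring),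
      ← Finset.mul_sum]
    have hmain := (le_abs_self _).trans ((abs_mul (c : ℝ) _).le.trans
      (mul_le_mul_of_nonneg_left htr (abs_nonneg (c : ℝ))))
    rw [mul_sub] at hmain
    have hbound : (d.choose b.K : ℝ) * |t| ^ b.K * (|(B : ℝ)| + |t|) ^ (d - b.K) ≤
        δ ^ b.s * ((d.choose b.K : ℝ) * R1 ^ b.K * (b.D.2 : ℝ) ^ (b.e * b.K - b.s) *
          (|(B : ℝ)| + T) ^ (d - b.K)) := by
      calc (d.choose b.K : ℝ) * |t| ^ b.K * (|(B : ℝ)| + |t|) ^ (d - b.K)
          ≤ (d.choose b.K : ℝ) * (δ ^ b.s * (R1 ^ b.K * (b.D.2 : ℝ) ^ (b.e * b.K - b.s))) *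
              (|(B : ℝ)| + T) ^ (d - b.K) := by
            gcongr
        _ = _ := by ring
    have h2 := mul_le_mul_of_nonneg_left hbound (abs_nonneg (c : ℝ))
    simp only [binom_eq, hT, hR1] at hmain h2 ⊢
    push_cast [Nat.cast_natAbs, Int.cast_abs] at hmain h2 ⊢
    linarith

theorem Box.rows_sound : ∀ (cc : List ℤ) (ls : List (List ℤ)) (g : List (List ℤ × ℤ)),
    b.rows cc ls = some g → g.length = cc.length ∧ cc.length = ls.length ∧
      ∀ r < cc.length, b.row (cc.getD r 0) (ls.getD r []) = some (g.getD r ([], 0))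
  | [], [], g, h => by
    simp only [Box.rows, Option.some.injEq] at h
    simp [← h]
  | [], _ :: _, g, h => by simp [Box.rows] at h
  | _ :: _, [], g, h => by simp [Box.rows] at h
  | c :: cc, l :: ls, g, h => by
    simp only [Box.rows] at h
    split at h
    · rename_i x xs hx hxs
      obtain rfl := Option.some.inj h
      obtain ⟨h1, h2, h3⟩ := Box.rows_sound cc ls xs hxs
      refine ⟨by simp [h1], by simp [h2], fun r hr => ?_⟩
      cases r with
      | zero => simpa using hx
      | succ r => simpa using h3 r (by simpa using hr)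
    · simp at h

theorem powTbl_ok (j : ℕ) (hj : j < 8) : layerOK j (powTbl.getD j []) = true := by
  simp only [powTbl]
  interval_cases j <;>
    simp only [List.getD_cons_succ, List.getD_cons_zero, layer0_ok, layer1_ok, layer2_ok,
      layer3_ok, layer4_ok, layer5_ok, layer6_ok, layer7_ok]

theorem cls_len (r : ℕ) (hr : r < 14) : (cls.getD r []).length = 4 := by
  interval_cases r <;> rfl

theorem layer_expand {j : ℕ} {W : Layer} (hW : layerOK j W = true) {col : List ℤ}
    (hcol : col.length = 14) {ys : List ℝ} (hys : ys.length = 4) :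
    (W.map fun p => (dotI col p.2 : ℝ) * mval p.1 ys).sum =
      ∑ r ∈ Finset.range 14, (col.getD r 0 : ℝ) * dotL (cls.getD r []) ys ^ j := by
  have hlen : cls.length = 14 := rfl
  simp only [layerOK, List.all_eq_true, List.mem_range, Bool.and_eq_true, decide_eq_true_eq, hlen]
    at hW
  have e : ∀ p ∈ W, (dotI col p.2 : ℝ) * mval p.1 ys =
      ∑ r ∈ Finset.range 14, (col.getD r 0 : ℝ) * ((p.2.getD r 0 : ℝ) * mval p.1 ys) := by
    intro p hp
    rw [dotI_eq_sum hcol ((hW 0 (by norm_num)).2 p hp).1]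
    push_cast
    rw [Finset.sum_mul]
    exact Finset.sum_congr rfl fun r _ => by ring
  rw [List.map_congr_left e]
  have key : ∀ r ∈ Finset.range 14, (col.getD r 0 : ℝ) * dotL (cls.getD r []) ys ^ j =
      (W.map fun p => (col.getD r 0 : ℝ) * ((p.2.getD r 0 : ℝ) * mval p.1 ys)).sum := by
    intro r hr
    have h1 := (hW r (Finset.mem_range.1 hr)).1
    rw [List.sum_map_mul_left, ← powExp_sum (cls.getD r []) ys j
      (by rw [cls_len r (Finset.mem_range.1 hr), hys]), ← h1, List.map_map]
    rfl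
  rw [Finset.sum_congr rfl key]
  clear e key hW
  induction W with
  | nil => simp
  | cons p W ih => simp only [List.map_cons, List.sum_cons, Finset.sum_add_distrib, ih]

theorem affine_one (q : List ℤ) (ys : List ℝ) (hq : q.length = 4) (hy : ys.length = 4) :
    (powTbl1.map fun p => (dotN p.1 q : ℝ) * mval p.1 ys).sum = dotL q ys := by
  obtain ⟨a, b, c, d, rfl⟩ : ∃ a b c d, q = [a, b, c, d] := by
    match q, hq with
    | [a, b, c, d], _ => exact ⟨a, b, c, d, rfl⟩
  obtain ⟨x, y, z, w, rfl⟩ : ∃ x y z w, ys = [x, y, z, w] := by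
    match ys, hy with
    | [x, y, z, w], _ => exact ⟨x, y, z, w, rfl⟩
  simp [powTbl1, dotN, mval, dotL, Int.add_def, Int.mul_def]
  ring

/-- The scale is positive. -/
theorem Box.scale_pos {c : List ℤ} {q : List ℤ} (hwf : b.wf c q = true) : 0 < b.scale := by
  simp only [Box.wf, Bool.and_eq_true, decide_eq_true_eq, List.all_eq_true] at hwf
  obtain ⟨⟨⟨-, -, hZ, -⟩, -⟩, hd⟩ := hwf
  have : (0 : ℝ) < b.D0 := by
    have : 0 < b.D0 := by unfold Box.D0; omega
    exact_mod_cast this
  unfold Box.scale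
  rcases hm : b.mdl with _ | d
  · positivity
  · rw [hm] at hd
    simp only [decide_eq_true_eq] at hd
    have : (0 : ℝ) < d := by exact_mod_cast hd
    positivity

/-- Soundness of the checked value. -/
theorem Box.value_sound {c : List ℤ} {q0 : ℤ} {q : List ℤ} {v : ℤ} (hwf : b.wf c q = true)
    (h : b.value c q0 q = some v) (hδ : b.D.Mem δ) (hr : InCoords b.cs rs) :
    b.scale * ((∑ r ∈ Finset.range 14,
        (c.getD r 0 : ℝ) * b.mdl.F (dotL (cls.getD r []) (b.point δ rs) / 36)) +
      q0 + dotL q (b.point δ rs)) ≤ δ ^ b.s * v := by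
  simp only [Box.value] at h
  split at h
  · simp at h
  rename_i g hg
  rw [withRows_eq] at h
  split at h
  · simp at h
  rename_i u hu
  obtain rfl := Option.some.inj h
  simp only [Box.wf, Bool.and_eq_true, decide_eq_true_eq, List.all_eq_true] at hwf
  obtain ⟨⟨⟨hK, hK8, hZ, hD1, hc, hq, hz, hcs, hs⟩, hw⟩, hd⟩ := hwf
  have h0 : 0 ≤ δ := le_trans (by exact_mod_cast hD1) hδ.1
  obtain ⟨hgl, -, hrow⟩ := Box.rows_sound _ _ _ hg
  rw [hc] at hgl hrow
  set ys := coordsAt δ b.cs rs with hys
  have hylen : ys.length = 4 := by rw [hys, coordsAt_length δ _ _ hr, hcs]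
  -- one class
  have hclass : ∀ r ∈ Finset.range 14,
      b.scale * ((c.getD r 0 : ℝ) * b.mdl.F (dotL (cls.getD r []) (b.point δ rs) / 36)) ≤
        (∑ j ∈ Finset.range b.K, ((g.getD r ([], 0)).1.getD j 0 : ℝ) *
          dotL (cls.getD r []) ys ^ j) + δ ^ b.s * (g.getD r ([], 0)).2 := fun r hr' =>
    Box.row_sound hK hZ h0 hδ hs hw hr (hz.trans hcs.symm)
      (hrow r (Finset.mem_range.1 hr'))
  have hsum := Finset.sum_le_sum hclass
  rw [← Finset.mul_sum, Finset.sum_add_distrib, ← Finset.mul_sum, Finset.sum_comm] at hsum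
  have herr : ∑ r ∈ Finset.range 14, ((g.getD r ([], 0)).2 : ℝ) =
      (((g.map fun x => x.2).sum : ℤ) : ℝ) := by
    rw [← hgl]
    clear * -
    induction g with
    | nil => simp
    | cons x xs ih =>
      rw [List.length_cons, Finset.sum_range_succ']
      simp only [List.getD_cons_succ, List.getD_cons_zero, List.map_cons, List.sum_cons]
      rw [ih, Int.cast_add]; ring
  -- the layers
  have hlay : ∀ (Ws : List Layer) (j0 : ℕ) (v : ℤ), b.layers g q0 q j0 Ws = some v →
      (∀ i < Ws.length, j0 + i < 8 ∧ Ws.getD i [] = powTbl.getD (j0 + i) []) →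
      ∑ i ∈ Finset.range Ws.length,
        ((∑ r ∈ Finset.range 14, ((g.getD r ([], 0)).1.getD (j0 + i) 0 : ℝ) *
            dotL (cls.getD r []) ys ^ (j0 + i)) +
          ((powTbl.getD (j0 + i) []).map fun p =>
            (b.affine q0 q (j0 + i) p.1 : ℝ) * mval p.1 ys).sum) ≤ δ ^ b.s * v := by
    intro Ws
    induction Ws with
    | nil =>
      intro j0 v hv _
      simp only [Box.layers, Option.some.injEq] at hv
      simp [← hv]
    | cons W Ws ih =>
      intro j0 v hv hidx
      simp only [Box.layers, withList_eq] at hv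
      split at hv
      · rename_i a a' ha ha'
        obtain rfl := Option.some.inj hv
        rw [List.length_cons, Finset.sum_range_succ', Int.add_def, Int.cast_add, mul_add, add_comm]
        have h00 := hidx 0 (by simp)
        simp only [Nat.add_zero, List.getD_cons_zero] at h00
        refine add_le_add ?_ ?_
        · have hl := layerHi_sound hδ h0 hr W a ha
          have hcol : (g.map fun x => x.1.getD j0 0).length = 14 := by simp [hgl]
          refine le_trans (le_of_eq ?_) hl
          rw [Nat.add_zero, ← h00.2]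
          have hgd : ∀ r ∈ Finset.range 14, ((g.getD r ([], 0)).1.getD j0 0 : ℝ) *
              dotL (cls.getD r []) ys ^ j0 =
              (((g.map fun x => x.1.getD j0 0).getD r 0 : ℤ) : ℝ) * dotL (cls.getD r []) ys ^ j0 := by
            intro r hr'
            rw [Finset.mem_range] at hr'
            simp [List.getD_eq_getElem?_getD, hgl, hr']
          rw [Finset.sum_congr rfl hgd, ← layer_expand (h00.2 ▸ powTbl_ok j0 h00.1) hcol hylen,
            ← List.sum_map_add]
          refine congrArg List.sum (List.map_congr_left fun p _ => ?_)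
          push_cast
          ring
        · have := ih (j0 + 1) a' ha' fun i hi => by
            have := hidx (i + 1) (by simpa using hi)
            simp only [List.getD_cons_succ] at this
            exact ⟨by omega, by rw [this.2]; congr 1; omega⟩
          refine le_trans (le_of_eq (Finset.sum_congr rfl fun i _ => ?_)) this
          rw [show j0 + (i + 1) = j0 + 1 + i by omega]
      · simp at hv
  have hlen : (powTbl.take b.K).length = b.K := by
    rw [List.length_take]; simp [powTbl]; omega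
  have hL := hlay _ 0 u hu fun i hi => by
    rw [hlen] at hi
    refine ⟨by omega, ?_⟩
    rw [Nat.zero_add]
    simp [List.getD_eq_getElem?_getD, hi]
  simp only [hlen, Nat.zero_add, Finset.sum_add_distrib] at hL
  -- the affine part
  have haff : ∑ j ∈ Finset.range b.K,
      ((powTbl.getD j []).map fun p => (b.affine q0 q j p.1 : ℝ) * mval p.1 ys).sum =
      b.scale * ((q0 : ℝ) + dotL q (b.point δ rs)) := by
    obtain ⟨k, hk⟩ : ∃ k, b.K = k + 2 := ⟨b.K - 2, by omega⟩
    rw [hk, Finset.sum_range_succ', Finset.sum_range_succ']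
    have hz0 : ∀ i ∈ Finset.range k, ((powTbl.getD (i + 1 + 1) []).map fun p =>
        (b.affine q0 q (i + 1 + 1) p.1 : ℝ) * mval p.1 ys).sum = 0 := fun i _ => by
      simp [Box.affine]
    rw [Finset.sum_eq_zero hz0]
    have hscale : b.scale = (b.scaleZ : ℝ) * b.Z := by
      unfold Box.scale Box.scaleZ
      rcases hm : b.mdl with _ | d
      · simp only [Box.D0]
        rw [show b.K - 1 = (b.K - 2) + 1 by omega, pow_succ]
        push_cast; ring
      · rw [hm] at hd
        simp only [decide_eq_true_eq] at hd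
        simp only [Box.D0]
        obtain ⟨e, rfl⟩ : ∃ e, d = e + 1 := ⟨d - 1, by omega⟩
        rw [pow_succ, Nat.add_sub_cancel]; push_cast; ring
    have h1 : (powTbl.getD 1 []).map (fun p => (b.affine q0 q 1 p.1 : ℝ) * mval p.1 ys) =
        powTbl1.map fun p => (b.scaleZ : ℝ) * ((dotN p.1 q : ℝ) * mval p.1 ys) := by
      refine List.map_congr_left fun p _ => ?_
      simp only [Box.affine]; push_cast; ring
    have h00 : powTbl.getD 0 [] = powTbl0 := rfl
    rw [zero_add, zero_add, h1, List.sum_map_mul_left, affine_one q ys hq hylen, h00]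
    rw [Box.point, dotL_point b.Z q b.z0 _ (hz.trans (hys ▸ hylen).symm), hscale]
    have hZ' : (b.Z : ℝ) ≠ 0 := by exact_mod_cast hZ.ne'
    have hm0 : mval [0, 0, 0, 0] ys = 1 := by
      match ys, hylen with
      | [x, y, z, w], _ => simp [mval]
    simp only [powTbl0, Box.affine, List.map_cons, List.map_nil, List.sum_cons, List.sum_nil, hm0]
    push_cast
    rw [← hys]
    field_simp
    ring
  rw [haff, Finset.sum_comm] at hL
  rw [herr, Finset.sum_comm] at hsum
  rw [Int.cast_add, mul_add, mul_add]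
  rw [mul_add] at hL
  linarith

/-- Soundness of the box check. -/
theorem Box.check_sound {c : List ℤ} {q0 : ℤ} {q : List ℤ} (h : b.check c q0 q = true)
    (hδ : b.D.Mem δ) (hr : InCoords b.cs rs) :
    (∑ r ∈ Finset.range 14, (c.getD r 0 : ℝ) * b.mdl.F (dotL (cls.getD r []) (b.point δ rs) / 36)) +
      q0 + dotL q (b.point δ rs) ≤ 0 := by
  simp only [Box.check, Bool.and_eq_true] at h
  obtain ⟨hwf, h⟩ := h
  split at h
  · simp at h
  rename_i u hu
  simp only [decide_eq_true_eq] at h
  have hD : (0 : ℤ) ≤ b.D.1 := by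
    simp only [Box.wf, Bool.and_eq_true, decide_eq_true_eq] at hwf
    exact hwf.1.1.2.2.2.1
  have h0 : 0 ≤ δ := le_trans (by exact_mod_cast hD) hδ.1
  have hu' : (u : ℝ) ≤ 0 := by exact_mod_cast h
  exact nonpos_of_mul_nonpos_right ((b.value_sound hwf hu hδ hr).trans
    (mul_nonpos_of_nonneg_of_nonpos (pow_nonneg h0 b.s) hu')) (b.scale_pos hwf)

end Vale.Agent.P154.Q3.End
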