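import Mathlib

/-!
# Integer intervals
-/

namespace Vale.Agent.P154.Q3.End

/-- An integer interval. -/
abbrev Iv := ℤ × ℤ

/-- Membership. -/
def Iv.Mem (I : Iv) (x : ℝ) : Prop := (I.1 : ℝ) ≤ x ∧ x ≤ (I.2 : ℝ)

/-- Sum of intervals. -/
def Iv.add (I J : Iv) : Iv := (I.1 + J.1, I.2 + J.2)

/-- Product of intervals. -/
def Iv.mul (I J : Iv) : Iv :=
  (min (min (I.1 * J.1) (I.1 * J.2)) (min (I.2 * J.1) (I.2 * J.2)),
    max (max (I.1 * J.1) (I.1 * J.2)) (max (I.2 * J.1) (I.2 * J.2)))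

/-- Power of an interval. -/
def Iv.pow (I : Iv) (n : ℕ) : Iv :=
  if n = 0 then (1, 1)
  else if n % 2 = 1 then (I.1 ^ n, I.2 ^ n)
  else if 0 ≤ I.1 then (I.1 ^ n, I.2 ^ n)
  else if I.2 ≤ 0 then (I.2 ^ n, I.1 ^ n)
  else (0, max (I.1 ^ n) (I.2 ^ n))

theorem Iv.add_mem {I J : Iv} {x y : ℝ} (hx : I.Mem x) (hy : J.Mem y) :
    (I.add J).Mem (x + y) := by
  unfold Iv.Mem Iv.add at *
  push_cast
  exact ⟨add_le_add hx.1 hy.1, add_le_add hx.2 hy.2⟩

theorem mul_le_max {a b x : ℝ} (h1 : a ≤ x) (h2 : x ≤ b) (c : ℝ) : x * c ≤ max (a * c) (b * c) := by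
  rcases le_total 0 c with h | h
  · exact le_max_of_le_right (mul_le_mul_of_nonneg_right h2 h)
  · exact le_max_of_le_left (mul_le_mul_of_nonpos_right h1 h)

theorem min_le_mul {a b x : ℝ} (h1 : a ≤ x) (h2 : x ≤ b) (c : ℝ) : min (a * c) (b * c) ≤ x * c := by
  rcases le_total 0 c with h | h
  · exact min_le_of_left_le (mul_le_mul_of_nonneg_right h1 h)
  · exact min_le_of_right_le (mul_le_mul_of_nonpos_right h2 h)

theorem Iv.mul_mem {I J : Iv} {x y : ℝ} (hx : I.Mem x) (hy : J.Mem y) :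
    (I.mul J).Mem (x * y) := by
  obtain ⟨a1, a2⟩ := hx
  obtain ⟨b1, b2⟩ := hy
  simp only [Iv.Mem, Iv.mul, Int.cast_min, Int.cast_max, Int.cast_mul]
  have l1 := min_le_mul b1 b2 x
  have u1 := mul_le_max b1 b2 x
  have la := min_le_mul a1 a2 (J.1 : ℝ)
  have ua := mul_le_max a1 a2 (J.1 : ℝ)
  have lb := min_le_mul a1 a2 (J.2 : ℝ)
  have ub := mul_le_max a1 a2 (J.2 : ℝ)
  simp only [mul_comm _ x] at l1 u1
  constructor
  · refine le_trans ?_ l1
    refine le_min (le_trans ?_ la) (le_trans ?_ lb)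
    · exact le_min ((min_le_left _ _).trans (min_le_left _ _))
        ((min_le_right _ _).trans (min_le_left _ _))
    · exact le_min ((min_le_left _ _).trans (min_le_right _ _))
        ((min_le_right _ _).trans (min_le_right _ _))
  · refine le_trans u1 ?_
    refine max_le (ua.trans ?_) (ub.trans ?_)
    · exact max_le ((le_max_left _ _).trans (le_max_left _ _))
        ((le_max_left _ _).trans (le_max_right _ _))
    · exact max_le ((le_max_right _ _).trans (le_max_left _ _))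
        ((le_max_right _ _).trans (le_max_right _ _))

theorem Iv.pow_mem {I : Iv} {x : ℝ} (hx : I.Mem x) (n : ℕ) : (I.pow n).Mem (x ^ n) := by
  obtain ⟨a1, a2⟩ := hx
  unfold Iv.pow
  split_ifs with h0 h1 h2 h3
  · subst h0; simp [Iv.Mem]
  · have ho : Odd n := Nat.odd_iff.2 h1
    exact ⟨by push_cast; exact ho.strictMono_pow.monotone a1,
      by push_cast; exact ho.strictMono_pow.monotone a2⟩
  · have h2' : (0 : ℝ) ≤ I.1 := by exact_mod_cast h2
    exact ⟨by push_cast; exact pow_le_pow_left₀ h2' a1 n,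
      by push_cast; exact pow_le_pow_left₀ (h2'.trans a1) a2 n⟩
  · have he : Even n := Nat.even_iff.2 (by omega)
    have h3' : (I.2 : ℝ) ≤ 0 := by exact_mod_cast h3
    refine ⟨?_, ?_⟩ <;> push_cast
    · rw [← he.neg_pow, ← he.neg_pow x]; exact pow_le_pow_left₀ (by linarith) (by linarith) n
    · rw [← he.neg_pow, ← he.neg_pow (I.1 : ℝ)]
      exact pow_le_pow_left₀ (by linarith) (by linarith) n
  · have he : Even n := Nat.even_iff.2 (by omega)
    refine ⟨by push_cast; exact he.pow_nonneg x, ?_⟩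
    push_cast
    rcases le_total 0 x with p | p
    · exact le_max_of_le_right (pow_le_pow_left₀ p a2 n)
    · refine le_max_of_le_left ?_
      rw [← he.neg_pow, ← he.neg_pow (I.1 : ℝ)]
      exact pow_le_pow_left₀ (by linarith) (by linarith) n

/-- Value of the linear form. -/
def dotL : List ℤ → List ℝ → ℝ
  | l :: ls, x :: xs => l * x + dotL ls xs
  | _, _ => 0

/-- The parameters lie in their intervals. -/
def InBox : List Iv → List ℝ → Prop
  | [], rs => rs = []
  | c :: cs, r :: rs => c.Mem r ∧ InBox cs rs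
  | _ :: _, [] => False

end Vale.Agent.P154.Q3.End
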