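import Vale.Agent.P154.End.ClassLin
import Vale.Agent.P154.End.Finish

/-!
# Chains of cones: a finite certificate for the scaled inequalities

The parameter is `t = 1000 δ`. On an interval of `t` the state is a cone: cofactors of `δ` (weight
one, unit `10⁻⁶`) or of `δ ^ 2` (weight two, unit `10⁻³`) bounding `ρ` and `α`. A step improves the
cone by three checked majorants; the last majorant contradicts `δ > 0`. An interval away from zero
may be treated by a box around its centre, which keeps the Taylor remainder small.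
-/

namespace Vale.Agent.P154.Q3.End

open scoped BigOperators

/-- The integer scale of a box. -/
def Box.scaleI (b : Box) : ℤ := b.scaleZ * b.Z

theorem Box.scale_eq {b : Box} {c q : List ℤ} (h : b.wf c q = true) :
    b.scale = (b.scaleI : ℝ) := by
  simp only [Box.wf, Bool.and_eq_true, decide_eq_true_eq] at h
  obtain ⟨⟨⟨hK, -⟩, -⟩, hd⟩ := h
  unfold Box.scale Box.scaleI Box.scaleZ
  rcases hm : b.mdl with _ | d
  · simp only [Box.D0]
    rw [show b.K - 1 = (b.K - 2) + 1 by omega, pow_succ]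
    push_cast; ring
  · rw [hm] at hd
    simp only [decide_eq_true_eq] at hd
    simp only [Box.D0]
    obtain ⟨e, rfl⟩ : ∃ e, d = e + 1 := ⟨d - 1, by omega⟩
    rw [pow_succ, Nat.add_sub_cancel]; push_cast; ring

/-- Model and parameters: `μ = mn / md`, `P₀ = P0 / 1000`, `A₀ = A0 / 1000`. -/
structure Setup where
  mdl : Mdl
  K : ℕ
  /-- Order of the expansion about centres. -/
  Kc : ℕ
  mn : ℕ
  md : ℕ
  P0 : ℕ
  A0 : ℕ

/-- A cone: weight and cofactor bounds. -/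
structure Cone where
  w : ℕ
  r0 : ℕ
  r1 : ℕ
  a : ℕ

/-- Upper rounding of a quotient. -/
def upDiv (a b : ℕ) : ℕ := a / b + 1

/-- The cone known beforehand. -/
def Setup.apriori (S : Setup) : Cone where
  w := 1
  r0 := upDiv (1000000 * S.mn) S.md
  r1 := upDiv (500000 * S.mn) S.md
  a := upDiv (6000000 * (S.mn * S.mn)) (S.md * S.md)

/-- The cone known beforehand on an interval of `t` starting at `D0`. -/
def Setup.start (S : Setup) (D0 : ℕ) : Cone :=
  if D0 = 0 then S.apriori else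
    { w := 2
      r0 := upDiv (1000000 * S.mn) (S.md * D0)
      r1 := upDiv (500000 * S.mn) (S.md * D0)
      a := min (upDiv (6000000 * (S.mn * S.mn)) (S.md * S.md * D0))
        (upDiv (S.mn * S.mn * S.A0 * 1000000) (S.md * S.md * (D0 * D0))) }

/-- The box about the centre of a cone of weight two. -/
def Setup.cbox (S : Setup) (D0 D1 : ℕ) (C : Cone) : Box :=
  let T : ℤ := ((D1 * D1 : ℕ) : ℤ)
  let m : ℤ := (((D0 + D1) / 2 : ℕ) : ℤ)
  let b0 : ℤ := (upDiv (C.a * S.mn) S.md : ℤ) * T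
  let b1 : ℤ := (upDiv (C.a * S.mn) (2 * S.md) : ℤ) * T
  let rm : ℤ := ((C.r1 : ℤ) - C.r0) * T / 2
  let am : ℤ := (C.a : ℤ) * T / 2
  let bm : ℤ := (b1 - b0) / 2
  { mdl := S.mdl
    K := S.Kc
    Q := 30
    Z := 1000000000
    z0 := [m * 1000000, rm, am, bm]
    D := (1, 1)
    cs := [(0, (((D0 : ℤ) - m) * 1000000, ((D1 : ℤ) - m) * 1000000)),
      (0, (-(C.r0 : ℤ) * T - rm, (C.r1 : ℤ) * T - rm)),
      (0, (-am, (C.a : ℤ) * T - am)),
      (0, (-b0 - bm, b1 - bm))]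
    s := 0 }

/-- The box of a cone on an interval of `t`. -/
def Setup.box (S : Setup) (D0 D1 : ℕ) (C : Cone) : Box where
  mdl := S.mdl
  K := S.K
  Q := 30
  Z := 1000000000
  z0 := [0, 0, 0, 0]
  D := ((D0 : ℤ), (D1 : ℤ))
  cs := [(1, ((1000000 : ℤ), (1000000 : ℤ))), (C.w, (-(C.r0 : ℤ), (C.r1 : ℤ))),
    (C.w, ((0 : ℤ), (C.a : ℤ))),
    (C.w, (-(upDiv (C.a * S.mn) S.md : ℤ), (upDiv (C.a * S.mn) (2 * S.md) : ℤ)))]
  s := 2

/-- Linear coefficient of a class vector at one variable. -/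
def linAt (c : List ℤ) (i : ℕ) : ℤ :=
  dotI c (cls.map fun l => l.getD i 0) / 36

/-- One improvement of a cone. -/
structure Step where
  MA : MajA
  cA : List ℤ
  MU : MajC
  cU : List ℤ
  ML : MajC
  cL : List ℤ
  /-- The bound on `α` comes from the fourth moment instead of the majorant. -/
  cap : Bool
  a : ℕ
  r0 : ℕ
  r1 : ℕ

/-- A scale `σ` and a value `v` with `σ` times the checked sum at most `v * t ^ 2`. -/
def Setup.bound (S : Setup) (cen : Bool) (D0 D1 : ℕ) (C : Cone) (c q : List ℤ) : Option (ℤ × ℤ) :=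
  if cen then
    if C.w = 2 ∧ 0 < D0 ∧ D0 ≤ D1 ∧ (S.cbox D0 D1 C).wf c q = true then
      match (S.cbox D0 D1 C).value c 0 q with
      | none => none
      | some v => some ((S.cbox D0 D1 C).scaleI *
          (if 0 ≤ v then ((D0 * D0 : ℕ) : ℤ) else ((D1 * D1 : ℕ) : ℤ)), v)
    else none
  else
    if (S.box D0 D1 C).wf c q then
      match (S.box D0 D1 C).value c 0 q with
      | none => none
      | some v => some ((S.box D0 D1 C).scaleI, v)
    else none

/-- Compare a checked value with a claimed cofactor: `f * v ≤ r * P * scale`, with `P > 0`. -/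
def cmpOK (b : Option (ℤ × ℤ)) (f : ℕ) (P : ℤ) (r : ℕ) : Bool :=
  match b with
  | none => false
  | some (σ, v) => decide (0 < P ∧ (f : ℤ) * v ≤ (r : ℤ) * P * σ)

/-- The cone after a step. -/
def Step.cone (t : Step) : Cone := ⟨2, t.r0, t.r1, t.a⟩

/-- The check of a step. -/
def Step.check (S : Setup) (cen : Bool) (D0 D1 : ℕ) (C : Cone) (t : Step) : Bool :=
  let b := S.bound cen D0 D1 C
  (if t.cap then decide (0 < D0 ∧ (S.mn * S.mn) * S.A0 * 1000000 ≤ t.a * (S.md * S.md) * (D0 * D0))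
   else
    t.MA.check && decide (0 < t.MA.den) && t.MA.classL t.cA &&
      cmpOK (b t.cA [0, 0, -linAt t.cA 2, 0]) (S.mn * S.mn * 1000000000)
        ((t.MA.den : ℤ) * (S.md * S.md : ℕ) - (S.mn * S.mn : ℕ) * linAt t.cA 2) t.a) &&
  (t.MU.check && decide (0 < t.MU.den ∧ t.MU.sden = 1 * (t.MU.den : ℤ)) &&
    t.MU.classL t.cU &&
    cmpOK (b t.cU [0, -linAt t.cU 1, 0, 0]) (S.mn * 1000000000)
      ((t.MU.den : ℤ) * S.md + S.mn * linAt t.cU 1) t.r0) &&
  (t.ML.check && decide (0 < t.ML.den ∧ t.ML.sden = -1 * (t.ML.den : ℤ)) &&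
    t.ML.classL t.cL &&
    cmpOK (b t.cL [0, -linAt t.cL 1, 0, 0]) (S.mn * 1000000000)
      ((t.ML.den : ℤ) * S.md - S.mn * linAt t.cL 1) t.r1)

/-- An interval of `t` with its steps and final majorant. -/
structure Leg where
  D1 : ℕ
  cen : Bool
  steps : List Step
  MX : MajX
  cX : List ℤ

/-- The final contradiction. -/
def lastOK (S : Setup) (D0 D1 : ℕ) (C : Cone) (L : Leg) : Bool :=
  L.MX.check && decide (0 < L.MX.den) && L.MX.classL L.cX &&
    match S.bound L.cen D0 D1 C L.cX [-(L.MX.den : ℤ), 0, 0, 0] with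
    | none => false
    | some (_, v) => decide (v < 0)

/-- All steps of an interval, then the contradiction. -/
def stepsOK (S : Setup) (D0 : ℕ) (L : Leg) : Cone → List Step → Bool
  | C, [] => lastOK S D0 L.D1 C L
  | C, t :: ts => t.check S L.cen D0 L.D1 C && stepsOK S D0 L t.cone ts

/-- Consecutive intervals from `D0` up to `P₀`. -/
def legsOK (S : Setup) : ℕ → List Leg → Bool
  | D0, [] => decide (S.P0 ≤ D0)
  | D0, L :: Ls => stepsOK S D0 L (S.start D0) L.steps && legsOK S L.D1 Ls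

/-- The whole certificate. -/
def Setup.check (S : Setup) (Ls : List Leg) : Bool :=
  decide (0 < S.md) && legsOK S 0 Ls

/-- The node sum of the model. -/
noncomputable def mdlNode (m : Mdl) (ms : List (Exp3 × ℚ)) (x y z w : ℝ) : ℝ :=
  (ms.map fun p => (p.2 : ℝ) * m.F (S4 p.1 x y z w)).sum

/-! ### Soundness -/

variable {S : Setup} {δ ρ α β : ℝ}

/-- Membership in a cone. -/
def Cone.Has (C : Cone) (δ ρ α : ℝ) : Prop :=
  if C.w = 1 then
    -(C.r0 : ℝ) * δ ≤ 1000000 * ρ ∧ 1000000 * ρ ≤ (C.r1 : ℝ) * δ ∧ 1000000 * α ≤ (C.a : ℝ) * δ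
  else C.w = 2 ∧
    -(C.r0 : ℝ) * δ ^ 2 ≤ 1000 * ρ ∧ 1000 * ρ ≤ (C.r1 : ℝ) * δ ^ 2 ∧ 1000 * α ≤ (C.a : ℝ) * δ ^ 2

theorem le_upDiv (a b : ℕ) (hb : 0 < b) : (a : ℝ) / b ≤ (upDiv a b : ℕ) := by
  rw [div_le_iff₀ (by exact_mod_cast hb : (0 : ℝ) < b)]
  have h := Nat.div_add_mod a b
  have h2 := Nat.mod_lt a hb
  have : a ≤ upDiv a b * b := by unfold upDiv; rw [Nat.add_mul, Nat.mul_comm (a / b)]; omega
  exact_mod_cast this

/-- The real parameters. -/
noncomputable def Setup.mu (S : Setup) : ℝ := (S.mn : ℝ) / S.md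

theorem apriori_has (hmd : 0 < S.md) {N : List (Exp3 × ℚ) → ℝ → ℝ → ℝ → ℝ → ℝ}
    (h : ScaledPt N S.mu δ ρ α β) : S.apriori.Has δ ρ α := by
  have hmd' : (0 : ℝ) < S.md := by exact_mod_cast hmd
  have u0 := le_upDiv (1000000 * S.mn) S.md hmd
  have u1 := le_upDiv (500000 * S.mn) S.md hmd
  have u2 := le_upDiv (6000000 * (S.mn * S.mn)) (S.md * S.md) (Nat.mul_pos hmd hmd)
  push_cast at u0 u1 u2
  have e0 : (1000000 : ℝ) * S.mu ≤ (S.apriori.r0 : ℕ) := by
    refine le_trans (le_of_eq ?_) u0; unfold Setup.mu; ring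
  have e1 : (500000 : ℝ) * S.mu ≤ (S.apriori.r1 : ℕ) := by
    refine le_trans (le_of_eq ?_) u1; unfold Setup.mu; ring
  have e2 : (6000000 : ℝ) * S.mu ^ 2 ≤ (S.apriori.a : ℕ) := by
    refine le_trans (le_of_eq ?_) u2; unfold Setup.mu; field_simp
  simp only [Cone.Has, show S.apriori.w = 1 from rfl, if_true]
  refine ⟨?_, ?_, ?_⟩
  · linarith [mul_le_mul_of_nonneg_right e0 h.δ0, h.ρ0]
  · linarith [mul_le_mul_of_nonneg_right e1 h.δ0, h.ρ1]
  · linarith [mul_le_mul_of_nonneg_right e2 h.δ0, h.α1]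

/-- The point as cofactors in the box of a cone. -/
theorem box_point (hmd : 0 < S.md) {N : List (Exp3 × ℚ) → ℝ → ℝ → ℝ → ℝ → ℝ}
    (h : ScaledPt N S.mu δ ρ α β) (hδ : 0 < δ) {D0 D1 : ℕ} {C : Cone} (hC : C.Has δ ρ α) :
    ∃ rs, InCoords (S.box D0 D1 C).cs rs ∧
      (S.box D0 D1 C).point (1000 * δ) rs = [δ, ρ, α, β] := by
  have hmd' : (0 : ℝ) < S.md := by exact_mod_cast hmd
  have u0 := le_upDiv (C.a * S.mn) S.md hmd
  have u1 := le_upDiv (C.a * S.mn) (2 * S.md) (Nat.mul_pos two_pos hmd)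
  push_cast at u0 u1
  have m0 : (C.a : ℝ) * S.mu ≤ (upDiv (C.a * S.mn) S.md : ℕ) := by
    refine le_trans (le_of_eq ?_) u0; unfold Setup.mu; ring
  have m1 : (C.a : ℝ) * S.mu / 2 ≤ (upDiv (C.a * S.mn) (2 * S.md) : ℕ) := by
    refine le_trans (le_of_eq ?_) u1; unfold Setup.mu; ring
  have hμ : 0 ≤ S.mu := by unfold Setup.mu; positivity
  obtain ⟨w, r0, r1, a⟩ := C
  have ht : (0 : ℝ) < (1000 * δ) ^ w := by positivity
  refine ⟨[1000000, 1000000000 * ρ / (1000 * δ) ^ w, 1000000000 * α / (1000 * δ) ^ w,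
    1000000000 * β / (1000 * δ) ^ w], ?_, ?_⟩
  · simp only [Setup.box, InCoords, Iv.Mem, Cone.Has] at *
    push_cast
    rcases eq_or_ne w 1 with rfl | hw
    · simp only [if_true] at hC
      obtain ⟨c0, c1, c2⟩ := hC
      simp only [pow_one, le_div_iff₀ (by positivity : (0 : ℝ) < 1000 * δ),
        div_le_iff₀ (by positivity : (0 : ℝ) < 1000 * δ)]
      have b0 := h.β0
      have b1 := h.β1
      have p0 := mul_le_mul_of_nonneg_right m0 hδ.le
      have p1 := mul_le_mul_of_nonneg_right m1 hδ.le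
      have q0 := mul_le_mul_of_nonneg_left c2 hμ
      refine ⟨⟨le_rfl, le_rfl⟩, ⟨?_, ?_⟩, ⟨?_, ?_⟩, ⟨?_, ?_⟩, trivial⟩ <;> nlinarith [h.α0]
    · simp only [if_neg hw] at hC
      obtain ⟨rfl, c0, c1, c2⟩ := hC
      simp only [le_div_iff₀ (by positivity : (0 : ℝ) < (1000 * δ) ^ 2),
        div_le_iff₀ (by positivity : (0 : ℝ) < (1000 * δ) ^ 2)]
      have b0 := h.β0
      have b1 := h.β1
      have p0 := mul_le_mul_of_nonneg_right m0 (sq_nonneg δ)
      have p1 := mul_le_mul_of_nonneg_right m1 (sq_nonneg δ)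
      have q0 := mul_le_mul_of_nonneg_left c2 hμ
      refine ⟨⟨le_rfl, le_rfl⟩, ⟨?_, ?_⟩, ⟨?_, ?_⟩, ⟨?_, ?_⟩, trivial⟩ <;> nlinarith [h.α0]
  · simp only [Box.point, Setup.box, coordsAt, List.zipWith_cons_cons, List.zipWith_nil_left]
    push_cast
    field_simp
    ring_nf

theorem start_has (hmd : 0 < S.md) {N : List (Exp3 × ℚ) → ℝ → ℝ → ℝ → ℝ → ℝ}
    (h : ScaledPt N S.mu δ ρ α β) (hδ : 0 < δ) (hA : α ≤ S.mu ^ 2 * ((S.A0 : ℝ) / 1000)) {D0 : ℕ}
    (h0 : (D0 : ℝ) ≤ 1000 * δ) : (S.start D0).Has δ ρ α := by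
  unfold Setup.start
  split_ifs with hD
  · exact apriori_has hmd h
  have hD' : 0 < D0 := Nat.pos_of_ne_zero hD
  have hDr : (0 : ℝ) < D0 := by exact_mod_cast hD'
  have hmd' : (0 : ℝ) < S.md := by exact_mod_cast hmd
  have hμ : 0 ≤ S.mu := by unfold Setup.mu; positivity
  have u0 := le_upDiv (1000000 * S.mn) (S.md * D0) (Nat.mul_pos hmd hD')
  have u1 := le_upDiv (500000 * S.mn) (S.md * D0) (Nat.mul_pos hmd hD')
  have u2 := le_upDiv (6000000 * (S.mn * S.mn)) (S.md * S.md * D0)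
    (Nat.mul_pos (Nat.mul_pos hmd hmd) hD')
  have u3 := le_upDiv (S.mn * S.mn * S.A0 * 1000000) (S.md * S.md * (D0 * D0))
    (Nat.mul_pos (Nat.mul_pos hmd hmd) (Nat.mul_pos hD' hD'))
  push_cast at u0 u1 u2 u3
  -- `δ ≤ δ ^ 2 * 1000 / D0`
  have g : δ * D0 ≤ 1000 * δ ^ 2 := by
    have := mul_le_mul_of_nonneg_left h0 hδ.le
    linarith [show δ * (1000 * δ) = 1000 * δ ^ 2 by ring]
  have g2 : (D0 : ℝ) * D0 ≤ 1000000 * δ ^ 2 := by
    have := mul_le_mul h0 h0 hDr.le (by positivity)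
    linarith [show 1000 * δ * (1000 * δ) = 1000000 * δ ^ 2 by ring]
  have e : ∀ {x : ℝ} {u : ℕ}, 0 ≤ x → x * 1000000 / D0 ≤ (u : ℝ) → 1000 * (x * δ) ≤ u * δ ^ 2 := by
    intro x u hx hu
    rw [div_le_iff₀ hDr] at hu
    have a := mul_le_mul_of_nonneg_left g hx
    have b := mul_le_mul_of_nonneg_right hu (sq_nonneg δ)
    have : (D0 : ℝ) * (1000 * (x * δ) - u * δ ^ 2) ≤ 0 := by nlinarith
    have := nonpos_of_mul_nonpos_right this hDr
    linarith
  simp only [Cone.Has, OfNat.ofNat_ne_one, if_false, true_and]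
  refine ⟨?_, ?_, ?_⟩
  · have := e (u := upDiv (1000000 * S.mn) (S.md * D0)) hμ
      (le_trans (le_of_eq (by unfold Setup.mu; field_simp)) u0)
    linarith [h.ρ0]
  · have := e (u := upDiv (500000 * S.mn) (S.md * D0)) (x := S.mu / 2) (by linarith)
      (le_trans (le_of_eq (by unfold Setup.mu; field_simp; ring)) u1)
    linarith [h.ρ1]
  · rw [Nat.cast_min, min_mul_of_nonneg _ _ (sq_nonneg δ)]
    refine le_min ?_ ?_
    · have := e (u := upDiv (6000000 * (S.mn * S.mn)) (S.md * S.md * D0)) (x := 6 * S.mu ^ 2)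
        (by positivity) (le_trans (le_of_eq (by unfold Setup.mu; field_simp; ring)) u2)
      linarith [h.α1]
    · rw [div_le_iff₀ (by positivity)] at u3
      have h5 := mul_le_mul_of_nonneg_left g2 (mul_nonneg (Nat.cast_nonneg
        (upDiv (S.mn * S.mn * S.A0 * 1000000) (S.md * S.md * (D0 * D0))))
        (mul_nonneg hmd'.le hmd'.le))
      have h6 : S.mu ^ 2 * (S.A0 : ℝ) ≤
          (upDiv (S.mn * S.mn * S.A0 * 1000000) (S.md * S.md * (D0 * D0)) : ℕ) * δ ^ 2 := by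
        unfold Setup.mu
        rw [div_pow, div_mul_eq_mul_div, div_le_iff₀ (by positivity)]
        nlinarith
      linarith

/-- The point as offsets in the box about a centre. -/
theorem cbox_point (hmd : 0 < S.md) {N : List (Exp3 × ℚ) → ℝ → ℝ → ℝ → ℝ → ℝ}
    (h : ScaledPt N S.mu δ ρ α β) {D0 D1 : ℕ} (h0 : (D0 : ℝ) ≤ 1000 * δ) (h1 : 1000 * δ ≤ D1)
    {C : Cone} (hw : C.w = 2) (hC : C.Has δ ρ α) :
    ∃ rs, InCoords (S.cbox D0 D1 C).cs rs ∧
      (S.cbox D0 D1 C).point 1 rs = [δ, ρ, α, β] := by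
  have hmd' : (0 : ℝ) < S.md := by exact_mod_cast hmd
  have u0 := le_upDiv (C.a * S.mn) S.md hmd
  have u1 := le_upDiv (C.a * S.mn) (2 * S.md) (Nat.mul_pos two_pos hmd)
  push_cast at u0 u1
  have m0 : (C.a : ℝ) * S.mu ≤ (upDiv (C.a * S.mn) S.md : ℕ) := by
    refine le_trans (le_of_eq ?_) u0; unfold Setup.mu; ring
  have m1 : (C.a : ℝ) * S.mu / 2 ≤ (upDiv (C.a * S.mn) (2 * S.md) : ℕ) := by
    refine le_trans (le_of_eq ?_) u1; unfold Setup.mu; ring
  have hμ : 0 ≤ S.mu := by unfold Setup.mu; positivity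
  simp only [Cone.Has, hw, OfNat.ofNat_ne_one, if_false, true_and] at hC
  obtain ⟨c0, c1, c2⟩ := hC
  have hT : 1000000 * δ ^ 2 ≤ ((D1 * D1 : ℕ) : ℝ) := by
    have := mul_le_mul h1 h1 (by linarith [Nat.cast_nonneg (α := ℝ) D0]) (Nat.cast_nonneg D1)
    push_cast
    linarith [show 1000 * δ * (1000 * δ) = 1000000 * δ ^ 2 by ring]
  have t0 := mul_le_mul_of_nonneg_left hT (Nat.cast_nonneg C.r0 : (0 : ℝ) ≤ _)
  have t1 := mul_le_mul_of_nonneg_left hT (Nat.cast_nonneg C.r1 : (0 : ℝ) ≤ _)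
  have t2 := mul_le_mul_of_nonneg_left hT (Nat.cast_nonneg C.a : (0 : ℝ) ≤ _)
  have s0 := mul_le_mul_of_nonneg_right m0 (sq_nonneg δ)
  have s1 := mul_le_mul_of_nonneg_right m1 (sq_nonneg δ)
  have q0 := mul_le_mul_of_nonneg_left c2 hμ
  have v0 := mul_le_mul_of_nonneg_left hT (Nat.cast_nonneg (upDiv (C.a * S.mn) S.md) : (0 : ℝ) ≤ _)
  have v1 := mul_le_mul_of_nonneg_left hT
    (Nat.cast_nonneg (upDiv (C.a * S.mn) (2 * S.md)) : (0 : ℝ) ≤ _)
  simp only [Setup.cbox]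
  generalize ((C.r1 : ℤ) - C.r0) * ((D1 * D1 : ℕ) : ℤ) / 2 = zr
  generalize (C.a : ℤ) * ((D1 * D1 : ℕ) : ℤ) / 2 = za
  generalize ((upDiv (C.a * S.mn) (2 * S.md) : ℤ) * ((D1 * D1 : ℕ) : ℤ) -
    (upDiv (C.a * S.mn) S.md : ℤ) * ((D1 * D1 : ℕ) : ℤ)) / 2 = zb
  generalize (((D0 + D1) / 2 : ℕ) : ℤ) = zm
  refine ⟨[1000000000 * δ - (zm : ℝ) * 1000000, 1000000000 * ρ - zr, 1000000000 * α - za,
    1000000000 * β - zb], ?_, ?_⟩
  rotate_left
  · simp [Box.point, coordsAt]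
  simp only [InCoords, Iv.Mem]
  push_cast at *
  have b0 := h.β0
  have b1 := h.β1
  refine ⟨⟨?_, ?_⟩, ⟨?_, ?_⟩, ⟨?_, ?_⟩, ⟨?_, ?_⟩, trivial⟩ <;> linarith [h.α0]

/-- A checked comparison bounds the node sum plus a linear form. -/
theorem cmp_le (hmd : 0 < S.md) {N : List (Exp3 × ℚ) → ℝ → ℝ → ℝ → ℝ → ℝ}
    (h : ScaledPt N S.mu δ ρ α β) (hδ : 0 < δ) {D0 D1 : ℕ} (h0 : (D0 : ℝ) ≤ 1000 * δ)
    (h1 : 1000 * δ ≤ D1) {C : Cone} (hC : C.Has δ ρ α) {ms : List (Exp3 × ℚ)} {den : ℕ}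
    {c q : List ℤ} (hm : classOK ms den c = true) {cen : Bool} {σ v : ℤ}
    (hb : S.bound cen D0 D1 C c q = some (σ, v)) :
    0 < (σ : ℝ) ∧ (σ : ℝ) *
      ((den : ℝ) * mdlNode S.mdl ms δ ρ α β + dotL q [δ, ρ, α, β]) ≤ 1000000 * δ ^ 2 * v := by
  cases cen
  · simp only [Setup.bound, Bool.false_eq_true, if_false] at hb
    split_ifs at hb with hwf
    split at hb
    · simp at hb
    rename_i v' hv
    simp only [Option.some.injEq, Prod.mk.injEq] at hb
    obtain ⟨rfl, rfl⟩ := hb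
    obtain ⟨rs, hin, hpt⟩ := box_point hmd h hδ (D0 := D0) (D1 := D1) hC
    have hD : (S.box D0 D1 C).D.Mem (1000 * δ) := by
      simp only [Setup.box, Iv.Mem]; push_cast; exact ⟨h0, h1⟩
    have := Box.value_sound hwf hv hD hin
    rw [Box.scale_eq hwf, hpt, ← classOK_sum hm] at this
    refine ⟨Box.scale_eq hwf ▸ Box.scale_pos hwf, ?_⟩
    simp only [mdlNode, Setup.box] at this ⊢
    push_cast at this
    linarith [show (1000 * δ) ^ 2 * (v' : ℝ) = 1000000 * δ ^ 2 * v' by ring]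
  · simp only [Setup.bound, if_true] at hb
    split_ifs at hb with hif
    obtain ⟨hw, hD, hD1, hwf⟩ := hif
    split at hb
    · simp at hb
    rename_i v' hv
    simp only [Option.some.injEq, Prod.mk.injEq] at hb
    obtain ⟨rfl, rfl⟩ := hb
    obtain ⟨rs, hin, hpt⟩ := cbox_point hmd h h0 h1 hw hC
    have hone : (S.cbox D0 D1 C).D.Mem 1 := by simp [Setup.cbox, Iv.Mem]
    have key := Box.value_sound hwf hv hone hin
    rw [Box.scale_eq hwf, hpt, ← classOK_sum hm] at key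
    have hs : 0 < ((S.cbox D0 D1 C).scaleI : ℝ) := Box.scale_eq hwf ▸ Box.scale_pos hwf
    simp only [mdlNode] at key ⊢
    simp only [show (S.cbox D0 D1 C).mdl = S.mdl from rfl, one_pow, one_mul, Int.cast_zero,
      add_zero] at key
    have hD' : (0 : ℝ) < D0 := by exact_mod_cast hD
    have hD1' : (D0 : ℝ) ≤ D1 := by exact_mod_cast hD1
    have l0 : (D0 : ℝ) * D0 ≤ 1000000 * δ ^ 2 := by
      have := mul_le_mul h0 h0 hD'.le (by positivity)
      linarith [show 1000 * δ * (1000 * δ) = 1000000 * δ ^ 2 by ring]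
    have l1 : 1000000 * δ ^ 2 ≤ (D1 : ℝ) * D1 := by
      have := mul_le_mul h1 h1 (by positivity) (Nat.cast_nonneg D1)
      linarith [show 1000 * δ * (1000 * δ) = 1000000 * δ ^ 2 by ring]
    by_cases hv0 : 0 ≤ v'
    · rw [if_pos hv0]
      push_cast
      have hv1 : (0 : ℝ) ≤ v' := by exact_mod_cast hv0
      refine ⟨mul_pos hs (mul_pos hD' hD'), ?_⟩
      have a := mul_le_mul_of_nonneg_left key (mul_nonneg hD'.le hD'.le)
      have b := mul_le_mul_of_nonneg_right l0 hv1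
      linarith
    · rw [if_neg hv0]
      push_cast
      have hv1 : (v' : ℝ) ≤ 0 := by exact_mod_cast (not_le.1 hv0).le
      have hD1'' : (0 : ℝ) < D1 := hD'.trans_le hD1'
      refine ⟨mul_pos hs (mul_pos hD1'' hD1''), ?_⟩
      have a := mul_le_mul_of_nonneg_left key (mul_nonneg hD1''.le hD1''.le)
      have b := mul_le_mul_of_nonpos_right l1 hv1
      linarith

theorem cmpOK_spec {b : Option (ℤ × ℤ)} {f : ℕ} {P : ℤ} {r : ℕ} (h : cmpOK b f P r = true) :
    ∃ σ v, b = some (σ, v) ∧ (0 : ℝ) < P ∧ (f : ℝ) * v ≤ (r : ℝ) * P * σ := by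
  unfold cmpOK at h
  split at h
  · simp at h
  rename_i σ v
  simp only [decide_eq_true_eq] at h
  exact ⟨σ, v, rfl, by exact_mod_cast h.1, by exact_mod_cast h.2⟩

/-- The common algebra of the three comparisons. -/
theorem cofactor_le {x δ s P N l f r v : ℝ} (hs : 0 < s) (hP : 0 < P) (hf : 0 ≤ f)
    (hx : P * x ≤ f * (N + l)) (hN : s * (N + l) ≤ 1000000 * δ ^ 2 * v)
    (hr : f * 1000000000 * v ≤ r * P * s) : 1000 * x ≤ r * δ ^ 2 := by
  have a := mul_le_mul_of_nonneg_left hx hs.le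
  have b := mul_le_mul_of_nonneg_left hN hf
  have c := mul_le_mul_of_nonneg_left hr (sq_nonneg δ)
  have : s * P * (1000 * x - r * δ ^ 2) ≤ 0 := by nlinarith
  have := nonpos_of_mul_nonpos_right this (mul_pos hs hP)
  linarith

theorem step_sound (hmd : 0 < S.md) (h : ScaledPt (mdlNode S.mdl) S.mu δ ρ α β) (hδ : 0 < δ)
    (hA : α ≤ S.mu ^ 2 * ((S.A0 : ℝ) / 1000)) {D0 D1 : ℕ} (h0 : (D0 : ℝ) ≤ 1000 * δ)
    (h1 : 1000 * δ ≤ D1) {C : Cone} (hC : C.Has δ ρ α) {t : Step} {cen : Bool}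
    (ht : t.check S cen D0 D1 C = true) : t.cone.Has δ ρ α := by
  simp only [Step.check, Bool.and_eq_true, decide_eq_true_eq] at ht
  obtain ⟨⟨hα, ⟨⟨hUc, hUd, hUs⟩, hUl⟩, hUv⟩, ⟨⟨hLc, hLd, hLs⟩, hLl⟩, hLv⟩ := ht
  have hUk := MajC.classL_ok hUd hUl
  have hLk := MajC.classL_ok hLd hLl
  have hmd' : (0 : ℝ) < S.md := by exact_mod_cast hmd
  have hn : (0 : ℝ) ≤ S.mn := Nat.cast_nonneg _
  simp only [Cone.Has, Step.cone, OfNat.ofNat_ne_one, if_false, true_and]
  refine ⟨?_, ?_, ?_⟩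
  · -- below
    obtain ⟨σ, v, hv, hP, hcmp⟩ := cmpOK_spec hUv
    have hMaj := MajC.maj hUd hUs hUc ((Bool.and_eq_true _ _).mp hUk).1
    obtain ⟨hs, hN⟩ := cmp_le hmd h hδ h0 h1 hC hUk hv
    simp only [dotL] at hN
    push_cast at hP hcmp hN
    have hu := h.upper t.MU.ms (by simpa using hMaj)
    rcases le_or_gt 0 ρ with hρ | hρ
    · have : (0 : ℝ) ≤ (t.r0 : ℝ) * δ ^ 2 := by positivity
      linarith
    have hμ0 : 0 ≤ S.mu := by unfold Setup.mu; positivity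
    have hpos : 0 < mdlNode S.mdl t.MU.ms δ ρ α β := by
      by_contra hle
      rw [max_eq_right (not_lt.1 hle)] at hu
      linarith
    rw [max_eq_left hpos.le] at hu
    have hu' : (S.md : ℝ) * (-ρ) ≤ S.mn * mdlNode S.mdl t.MU.ms δ ρ α β := by
      have := mul_le_mul_of_nonneg_left (neg_le.1 hu) hmd'.le
      unfold Setup.mu at this
      field_simp at this
      linarith
    have hd' : (0 : ℝ) ≤ t.MU.den := Nat.cast_nonneg _
    have := cofactor_le (x := -ρ) (δ := δ) hs hP hn (l := -(linAt t.cU 1 : ℝ) * ρ)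
      (N := (t.MU.den : ℝ) * mdlNode S.mdl t.MU.ms δ ρ α β)
      (by have := mul_le_mul_of_nonneg_left hu' hd'; linarith) (by linarith) hcmp
    linarith
  · -- above
    obtain ⟨σ, v, hv, hP, hcmp⟩ := cmpOK_spec hLv
    have hMaj := MajC.maj hLd hLs hLc ((Bool.and_eq_true _ _).mp hLk).1
    obtain ⟨hs, hN⟩ := cmp_le hmd h hδ h0 h1 hC hLk hv
    simp only [dotL] at hN
    push_cast at hP hcmp hN
    have hu := h.lower t.ML.ms (by simpa using hMaj)
    rcases le_or_gt ρ 0 with hρ | hρ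
    · have : (0 : ℝ) ≤ (t.r1 : ℝ) * δ ^ 2 := by positivity
      linarith
    have hμ0 : 0 ≤ S.mu := by unfold Setup.mu; positivity
    have hpos : 0 < mdlNode S.mdl t.ML.ms δ ρ α β := by
      by_contra hle
      rw [max_eq_right (not_lt.1 hle)] at hu
      linarith
    rw [max_eq_left hpos.le] at hu
    have hu' : (S.md : ℝ) * ρ ≤ S.mn * mdlNode S.mdl t.ML.ms δ ρ α β := by
      have := mul_le_mul_of_nonneg_left hu hmd'.le
      unfold Setup.mu at this
      field_simp at this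
      linarith
    have hd' : (0 : ℝ) ≤ t.ML.den := Nat.cast_nonneg _
    have := cofactor_le (x := ρ) (δ := δ) hs hP hn (l := -(linAt t.cL 1 : ℝ) * ρ)
      (N := (t.ML.den : ℝ) * mdlNode S.mdl t.ML.ms δ ρ α β)
      (by have := mul_le_mul_of_nonneg_left hu' hd'; linarith) (by linarith) hcmp
    linarith
  · -- the fourth moment
    cases hcap : t.cap
    · simp only [hcap, Bool.false_eq_true, if_false, Bool.and_eq_true, decide_eq_true_eq] at hα
      obtain ⟨⟨⟨hAc, hAd⟩, hAl⟩, hAv⟩ := hα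
      have hAk := MajA.classL_ok hAd hAl
      obtain ⟨σ, v, hv, hP, hcmp⟩ := cmpOK_spec hAv
      have hMaj := MajA.maj hAd hAc ((Bool.and_eq_true _ _).mp hAk).1
      obtain ⟨hs, hN⟩ := cmp_le hmd h hδ h0 h1 hC hAk hv
      simp only [dotL] at hN
      push_cast at hP hcmp hN
      have hu := h.four t.MA.ms hMaj
      have hu' : (S.md : ℝ) ^ 2 * α ≤ (S.mn : ℝ) ^ 2 * mdlNode S.mdl t.MA.ms δ ρ α β := by
        have := mul_le_mul_of_nonneg_left hu (sq_nonneg (S.md : ℝ))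
        unfold Setup.mu at this
        field_simp at this
        linarith
      have hd' : (0 : ℝ) ≤ t.MA.den := Nat.cast_nonneg _
      exact cofactor_le (x := α) (δ := δ) hs hP (mul_nonneg hn hn) (l := -(linAt t.cA 2 : ℝ) * α)
        (N := (t.MA.den : ℝ) * mdlNode S.mdl t.MA.ms δ ρ α β)
        (by have := mul_le_mul_of_nonneg_left hu' hd'; linarith) (by linarith) hcmp
    · simp only [hcap, if_true, decide_eq_true_eq] at hα
      obtain ⟨hD, hle⟩ := hα
      have hle' : ((S.mn : ℝ) * S.mn) * S.A0 * 1000000 ≤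
          (t.a : ℝ) * ((S.md : ℝ) * S.md) * ((D0 : ℝ) * D0) := by exact_mod_cast hle
      have hD2 : (D0 : ℝ) * D0 ≤ 1000000 * δ ^ 2 := by
        have := mul_le_mul h0 h0 (Nat.cast_nonneg _) (by positivity)
        linarith [show 1000 * δ * (1000 * δ) = 1000000 * δ ^ 2 by ring]
      have h5 := mul_le_mul_of_nonneg_left hD2
        (mul_nonneg (Nat.cast_nonneg t.a) (mul_nonneg hmd'.le hmd'.le))
      have h6 : S.mu ^ 2 * (S.A0 : ℝ) ≤ (t.a : ℝ) * δ ^ 2 := by
        unfold Setup.mu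
        rw [div_pow, div_mul_eq_mul_div, div_le_iff₀ (by positivity)]
        nlinarith
      linarith

theorem last_sound (hmd : 0 < S.md) (h : ScaledPt (mdlNode S.mdl) S.mu δ ρ α β) (hδ : 0 < δ)
    {D0 D1 : ℕ} (h0 : (D0 : ℝ) ≤ 1000 * δ) (h1 : 1000 * δ ≤ D1) {C : Cone} (hC : C.Has δ ρ α)
    {L : Leg} (hL : lastOK S D0 D1 C L = true) : False := by
  simp only [lastOK, Bool.and_eq_true, decide_eq_true_eq] at hL
  obtain ⟨⟨⟨hc, hd⟩, hl⟩, hv'⟩ := hL
  have hk := MajX.classL_ok hd hl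
  split at hv'
  · simp at hv'
  rename_i σ v hv
  simp only [decide_eq_true_eq] at hv'
  have hMaj := MajX.maj hd hc ((Bool.and_eq_true _ _).mp hk).1
  obtain ⟨hs, hN⟩ := cmp_le hmd h hδ h0 h1 hC hk hv
  simp only [dotL] at hN
  push_cast at hN
  have hu := mul_le_mul_of_nonneg_left (h.two L.MX.ms hMaj) (Nat.cast_nonneg L.MX.den : (0 : ℝ) ≤ _)
  have hneg : (v : ℝ) < 0 := by exact_mod_cast hv'
  have h3 : 1000000 * δ ^ 2 * (v : ℝ) < 0 := mul_neg_of_pos_of_neg (by positivity) hneg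
  have h4 := mul_le_mul_of_nonneg_left hu hs.le
  linarith

theorem steps_sound (hmd : 0 < S.md) (h : ScaledPt (mdlNode S.mdl) S.mu δ ρ α β) (hδ : 0 < δ)
    (hA : α ≤ S.mu ^ 2 * ((S.A0 : ℝ) / 1000)) {D0 : ℕ} (h0 : (D0 : ℝ) ≤ 1000 * δ) {L : Leg}
    (h1 : 1000 * δ ≤ L.D1) : ∀ (ts : List Step) (C : Cone), C.Has δ ρ α →
      stepsOK S D0 L C ts = true → False
  | [], C, hC, hk => last_sound hmd h hδ h0 h1 hC hk
  | t :: ts, C, hC, hk => by
    simp only [stepsOK, Bool.and_eq_true] at hk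
    exact steps_sound hmd h hδ hA h0 h1 ts _ (step_sound hmd h hδ hA h0 h1 hC hk.1) hk.2

/-- A checked chain excludes every positive magnetisation below `P₀`. -/
theorem Setup.check_sound {Ls : List Leg} (hS : S.check Ls = true)
    (h : ScaledPt (mdlNode S.mdl) S.mu δ ρ α β) (hP : δ ≤ (S.P0 : ℝ) / 1000)
    (hA : α ≤ S.mu ^ 2 * ((S.A0 : ℝ) / 1000)) : δ ≤ 0 := by
  simp only [Setup.check, Bool.and_eq_true, decide_eq_true_eq] at hS
  obtain ⟨hmd, hl⟩ := hS
  by_contra hne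
  have hδ : 0 < δ := not_le.1 hne
  have key : ∀ (Ls : List Leg) (D0 : ℕ), legsOK S D0 Ls = true → (D0 : ℝ) < 1000 * δ → False := by
    intro Ls
    induction Ls with
    | nil =>
      intro D0 hk hD
      simp only [legsOK, decide_eq_true_eq] at hk
      have hk' : (S.P0 : ℝ) ≤ D0 := by exact_mod_cast hk
      linarith
    | cons L Ls ih =>
      intro D0 hk hD
      simp only [legsOK, Bool.and_eq_true] at hk
      rcases le_or_gt (1000 * δ) (L.D1 : ℝ) with h' | h'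
      · exact steps_sound hmd h hδ hA hD.le h' L.steps _ (start_has hmd h hδ hA hD.le) hk.1
      · exact ih L.D1 hk.2 h'
  exact key Ls 0 hl (by simp; linarith)

end Vale.Agent.P154.Q3.End
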