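import Vale.Agent.P154.End.Classes

/-!
# The class vector of a majorant by linearity

The class vector of `H * plev cs` is the combination with coefficients `cs` of the fixed class
vectors of `H * uⁱ`, so the class check of a majorant only needs integer dot products.
-/

namespace Vale.Agent.P154.Q3.End

/-- A linear functional of a monomial list given by its values on exponents. -/
def Ev (g : Exp3 → ℚ) (ms : List (Exp3 × ℚ)) : ℚ := (ms.map fun p => p.2 * g p.1).sum

@[simp] theorem Ev_nil (g : Exp3 → ℚ) : Ev g [] = 0 := rfl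

theorem Ev_cons (g : Exp3 → ℚ) (p : Exp3 × ℚ) (ms : List (Exp3 × ℚ)) :
    Ev g (p :: ms) = p.2 * g p.1 + Ev g ms := by simp [Ev]

theorem Ev_addTerm (g : Exp3 → ℚ) (p : Exp3 × ℚ) : ∀ ms,
    Ev g (addTerm p ms) = p.2 * g p.1 + Ev g ms
  | [] => by simp [addTerm, Ev]
  | q :: qs => by
    rw [addTerm]
    split
    · next h => rw [Ev_cons, Ev_cons, h]; ring
    · rw [Ev_cons, Ev_cons, Ev_addTerm g p qs]; ring

theorem Ev_padd (g : Exp3 → ℚ) (a b : List (Exp3 × ℚ)) :
    Ev g (padd a b) = Ev g a + Ev g b := by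
  induction a with
  | nil => simp [padd]
  | cons p a ih => rw [padd, List.foldr_cons, Ev_addTerm, ← padd, ih, Ev_cons]; ring

theorem Ev_pscale (g : Exp3 → ℚ) (c : ℚ) : ∀ a, Ev g (pscale c a) = c * Ev g a
  | [] => by simp [pscale]
  | p :: a => by
    rw [show pscale c (p :: a) = (p.1, c * p.2) :: pscale c a from rfl, Ev_cons, Ev_cons,
      Ev_pscale g c a]
    ring

theorem Ev_shift (g : Exp3 → ℚ) (p : Exp3 × ℚ) : ∀ b : List (Exp3 × ℚ),
    Ev g (b.map fun q => (p.1 + q.1, p.2 * q.2)) = p.2 * Ev (fun e => g (p.1 + e)) b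
  | [] => by simp
  | q :: b => by rw [List.map_cons, Ev_cons, Ev_cons, Ev_shift g p b]; ring

theorem Ev_pmul (g : Exp3 → ℚ) (a b : List (Exp3 × ℚ)) :
    Ev g (pmul a b) = Ev (fun e => Ev (fun e' => g (e + e')) b) a := by
  induction a with
  | nil => simp [pmul]
  | cons p a ih => rw [pmul, List.foldr_cons, Ev_padd, ← pmul, ih, Ev_shift, Ev_cons]

theorem pmul_nil_right : ∀ a : List (Exp3 × ℚ), pmul a [] = []
  | [] => rfl
  | p :: a => by rw [pmul, List.foldr_cons, ← pmul, pmul_nil_right a]; simp [padd]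

/-- The powers of the mean less one. -/
def upow : ℕ → List (Exp3 × ℚ)
  | 0 => [((0, 0, 0), 1)]
  | n + 1 => pmul pU (upow n)

/-- The combination with coefficients `cs`. -/
def comb : List ℤ → (ℕ → ℚ) → ℚ
  | [], _ => 0
  | c :: cs, f => c * f 0 + comb cs fun i => f (i + 1)

theorem comb_zero : ∀ cs : List ℤ, (comb cs fun _ => 0) = 0
  | [] => rfl
  | c :: cs => by simp [comb, comb_zero cs]

theorem comb_lin (x : ℚ) : ∀ (cs : List ℤ) (f g : ℕ → ℚ),
    (comb cs fun i => x * f i + g i) = x * comb cs f + comb cs g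
  | [], f, g => by simp [comb]
  | c :: cs, f, g => by simp only [comb, comb_lin x cs]; ring

theorem Ev_comb (cs : List ℤ) (F : Exp3 → ℕ → ℚ) : ∀ ms : List (Exp3 × ℚ),
    Ev (fun e => comb cs (F e)) ms = comb cs fun i => Ev (fun e => F e i) ms
  | [] => by simp only [Ev_nil, comb_zero]
  | p :: ms => by simp only [Ev_cons, Ev_comb cs F ms, comb_lin]

theorem Ev_plev : ∀ (cs : List ℤ) (g : Exp3 → ℚ),
    Ev g (plev cs) = comb cs fun i => Ev g (upow i)
  | [], g => by simp [plev, comb]
  | c :: cs, g => by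
    rw [plev, Ev_addTerm, Ev_pmul]
    simp only [Ev_plev cs, Ev_comb, comb]
    congr 1
    · simp [upow, Ev]
    · congr 1
      funext i
      rw [upow, Ev_pmul]

theorem Ev_mul_plev (g : Exp3 → ℚ) (H : List (Exp3 × ℚ)) (cs : List ℤ) :
    Ev g (pmul H (plev cs)) = comb cs fun i => Ev g (pmul H (upow i)) := by
  rw [Ev_pmul]
  simp only [Ev_plev, Ev_comb, Ev_pmul g H]

/-- Indicator of a class. -/
def cind (r : ℕ) (e : Exp3) : ℚ := if clsIdx e = r then 1 else 0

theorem classSum_eq (r : ℕ) : ∀ ms, classSum ms r = Ev (cind r) ms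
  | [] => by simp [classSum]
  | p :: ms => by
    rw [Ev_cons, ← classSum_eq r ms]
    rcases eq_or_ne (clsIdx p.1) r with h | h <;> simp [classSum, cind, h]

/-- Integer dot product of coefficients with a column of a table. -/
def colDot : List ℤ → List (List ℤ) → ℕ → ℤ
  | c :: cs, row :: rows, r => c * row.getD r 0 + colDot cs rows r
  | _, _, _ => 0

/-- The table lists `243` times the class vectors of `H * uⁱ`. -/
def tableOK (H : List (Exp3 × ℚ)) (T : List (List ℤ)) : Bool :=
  (List.range T.length).all fun i => (List.range 14).all fun r =>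
    decide (243 * classSum (pmul H (upow i)) r = ((T.getD i []).getD r 0 : ℚ))

theorem colDot_eq : ∀ (cs : List ℤ) (T : List (List ℤ)) (f : ℕ → ℚ) (r : ℕ),
    cs.length ≤ T.length → (∀ i < T.length, 243 * f i = ((T.getD i []).getD r 0 : ℚ)) →
    243 * comb cs f = (colDot cs T r : ℚ)
  | [], T, f, r, _, _ => by cases T <;> simp [comb, colDot]
  | c :: cs, [], f, r, h, _ => by simp at h
  | c :: cs, row :: T, f, r, h, hf => by
    have h0 := hf 0 (by simp)
    have ih := colDot_eq cs T (fun i => f (i + 1)) r (by simpa using h) fun i hi => by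
      simpa using hf (i + 1) (by simpa using hi)
    simp only [List.getD_cons_zero] at h0
    simp only [comb, colDot]
    push_cast
    linear_combination (c : ℚ) * h0 + ih

theorem table_dot {H : List (Exp3 × ℚ)} {T : List (List ℤ)} (hT : tableOK H T = true)
    {cs : List ℤ} (hl : cs.length ≤ T.length) {r : ℕ} (hr : r < 14) :
    243 * Ev (cind r) (pmul H (plev cs)) = (colDot cs T r : ℚ) := by
  rw [Ev_mul_plev]
  refine colDot_eq cs T _ r hl fun i hi => ?_
  simp only [tableOK, List.all_eq_true, List.mem_range, decide_eq_true_eq] at hT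
  rw [← classSum_eq]
  exact hT i hi r hr

/-- Table for `V`. -/
def tV : List (List ℤ) :=
  [[0, -486, 0, 486, 0, 0, 0, 0, 0, 0, 0, 0, 0, 0],
   [0, 486, -162, -486, 0, 0, 0, 162, 0, 0, 0, 0, 0, 0],
   [0, -486, 162, 486, 0, 0, 0, -324, 108, 0, 0, 54, 0, 0],
   [0, 486, 0, -486, 0, 0, -108, 486, -324, -18, 36, -162, 72, 18]]

/-- Table for the mean. -/
def tL : List (List ℤ) :=
  [[243, 0, 0, 0, 0, 0, 0, 0, 0, 0, 0, 0, 0, 0],
   [-243, 162, 0, 81, 0, 0, 0, 0, 0, 0, 0, 0, 0, 0],
   [243, -324, 54, -162, 162, 0, 0, 27, 0, 0, 0, 0, 0, 0],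
   [-243, 486, -54, 243, -486, 54, 0, -81, 72, 0, 0, 9, 0, 0],
   [243, -648, -108, -324, 972, -216, 90, 162, -288, 60, 60, -36, 30, 3]]

/-- Table for `V ^ 2`. -/
def tVV : List (List ℤ) :=
  [[0, 0, 0, 0, 0, 972, 0, 0, -1296, 0, 0, 324, 0, 0],
   [0, 0, 0, 0, 0, -972, 324, 0, 1296, -432, 216, -324, -216, 108]]

/-- Table for `C`. -/
def tC : List (List ℤ) :=
  [[0, 0, 324, 0, -486, 0, 0, 162, 0, 0, 0, 0, 0, 0],
   [0, 0, -162, 0, 486, -162, 0, -162, -54, 0, 0, 54, 0, 0],
   [0, 0, 0, 0, -486, 324, 54, 162, 108, 36, -126, -108, 18, 18]]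

theorem tV_ok : tableOK pV tV = true := by decide +kernel
theorem tL_ok : tableOK pLbar tL = true := by decide +kernel
theorem tVV_ok : tableOK (pmul pV pV) tVV = true := by decide +kernel
theorem tC_ok : tableOK pC tC = true := by decide +kernel

/-! ### Degrees -/

/-- Exponent sum. -/
def edeg (e : Exp3) : ℕ := e.1 + e.2.1 + e.2.2

/-- All exponent sums are at most `n`. -/
def DegLe (n : ℕ) (ms : List (Exp3 × ℚ)) : Prop := ∀ p ∈ ms, edeg p.1 ≤ n

theorem DegLe.addTerm {n : ℕ} {q : Exp3 × ℚ} (hq : edeg q.1 ≤ n) :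
    ∀ {ms : List (Exp3 × ℚ)}, DegLe n ms → DegLe n (addTerm q ms)
  | [], _ => by simpa [End.addTerm, DegLe] using hq
  | p :: ms, h => by
    rw [End.addTerm]
    split
    · intro x hx
      rcases List.mem_cons.1 hx with rfl | hx
      · exact h p (List.mem_cons_self ..)
      · exact h x (List.mem_cons_of_mem _ hx)
    · intro x hx
      rcases List.mem_cons.1 hx with rfl | hx
      · exact h _ (List.mem_cons_self ..)
      · exact DegLe.addTerm hq (fun y hy => h y (List.mem_cons_of_mem _ hy)) x hx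

theorem DegLe.padd {n : ℕ} {a b : List (Exp3 × ℚ)} (ha : DegLe n a) (hb : DegLe n b) :
    DegLe n (padd a b) := by
  induction a with
  | nil => simpa [End.padd] using hb
  | cons p a ih =>
    rw [End.padd, List.foldr_cons, ← End.padd]
    exact DegLe.addTerm (ha p (List.mem_cons_self ..))
      (ih fun y hy => ha y (List.mem_cons_of_mem _ hy))

theorem DegLe.pscale {n : ℕ} {a : List (Exp3 × ℚ)} (c : ℚ) (ha : DegLe n a) :
    DegLe n (pscale c a) := by
  intro x hx
  obtain ⟨p, hp, rfl⟩ := List.mem_map.1 hx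
  exact ha p hp

theorem edeg_add (a b : Exp3) : edeg (a + b) = edeg a + edeg b := by
  simp [edeg]; omega

theorem DegLe.pmul {m n : ℕ} {a b : List (Exp3 × ℚ)} (ha : DegLe m a) (hb : DegLe n b) :
    DegLe (m + n) (pmul a b) := by
  induction a with
  | nil => simp [End.pmul, DegLe]
  | cons p a ih =>
    rw [End.pmul, List.foldr_cons, ← End.pmul]
    refine DegLe.padd ?_ (ih fun y hy => ha y (List.mem_cons_of_mem _ hy))
    intro x hx
    obtain ⟨q, hq, rfl⟩ := List.mem_map.1 hx
    have h1 := ha p (List.mem_cons_self ..)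
    have h2 := hb q hq
    rw [edeg_add]; omega

theorem pU_deg : DegLe 1 pU := by unfold DegLe; decide +kernel
theorem pV_deg : DegLe 2 pV := by unfold DegLe; decide +kernel
theorem pC_deg : DegLe 3 pC := by unfold DegLe; decide +kernel
theorem pLbar_deg : DegLe 1 pLbar := by unfold DegLe; decide +kernel

theorem plev_deg : ∀ (cs : List ℤ) (n : ℕ), cs.length ≤ n + 1 → DegLe n (plev cs)
  | [], n, _ => by simp [plev, DegLe]
  | c :: cs, n, h => by
    rw [plev]
    refine DegLe.addTerm (by simp [edeg]) ?_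
    rcases cs with _ | ⟨d, ds⟩
    · simp [plev, pmul_nil_right, DegLe]
    · obtain ⟨m, rfl⟩ : ∃ m, n = m + 1 := ⟨n - 1, by simp at h; omega⟩
      have := DegLe.pmul pU_deg (plev_deg (d :: ds) m (by simpa using h))
      rwa [Nat.add_comm] at this

theorem degOK_of {ms : List (Exp3 × ℚ)} (h : DegLe 5 ms) : degOK ms = true := by
  simp only [degOK, List.all_eq_true, decide_eq_true_eq]
  exact h

/-! ### The checks -/

theorem classOK_of {X : List (Exp3 × ℚ)} {den : ℕ} {c : List ℤ} (hd : 0 < den)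
    (hdeg : DegLe 5 X) (h : ∀ r < 14, 243 * Ev (cind r) X = 243 * (c.getD r 0 : ℚ)) :
    classOK (pscale (1 / den) X) den c = true := by
  simp only [classOK, Bool.and_eq_true, List.all_eq_true, List.mem_range, decide_eq_true_eq]
  refine ⟨degOK_of (DegLe.pscale _ hdeg), fun r hr => ?_⟩
  have hd' : (den : ℚ) ≠ 0 := by exact_mod_cast hd.ne'
  have := h r hr
  rw [classSum_eq, Ev_pscale]
  field_simp
  linarith

/-- Class check of a majorant of `V / L̄`. -/
def MajX.classL (M : MajX) (c : List ℤ) : Bool :=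
  decide (M.P.length ≤ 4 ∧ M.G.length ≤ 5) &&
    (List.range 14).all fun r =>
      decide (colDot M.P tV r + colDot M.G tL r = 243 * c.getD r 0)

/-- Class check of a majorant of `V ^ 2 / L̄ ^ 3`. -/
def MajA.classL (M : MajA) (c : List ℤ) : Bool :=
  decide (M.P.length ≤ 2 ∧ M.Q.length ≤ 4 ∧ M.G.length ≤ 5) &&
    (List.range 14).all fun r =>
      decide (colDot M.P tVV r + colDot M.Q tV r + colDot M.G tL r = 243 * c.getD r 0)

/-- Class check of a majorant of `± C / L̄ ^ 2`. -/
def MajC.classL (M : MajC) (c : List ℤ) : Bool :=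
  decide (M.P.length ≤ 3 ∧ M.Q.length ≤ 4 ∧ M.G.length ≤ 5) &&
    (List.range 14).all fun r =>
      decide (colDot M.P tC r + colDot M.Q tV r + colDot M.G tL r = 243 * c.getD r 0)

theorem MajX.classL_ok {M : MajX} {c : List ℤ} (hd : 0 < M.den) (h : M.classL c = true) :
    classOK M.ms M.den c = true := by
  simp only [MajX.classL, Bool.and_eq_true, List.all_eq_true, List.mem_range,
    decide_eq_true_eq] at h
  obtain ⟨⟨hP, hG⟩, hc⟩ := h
  refine classOK_of hd (DegLe.padd ?_ ?_) fun r hr => ?_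
  · exact DegLe.pmul pV_deg (plev_deg _ 3 hP)
  · exact DegLe.pmul pLbar_deg (plev_deg _ 4 hG)
  · have e := congrArg (fun z : ℤ => (z : ℚ)) (hc r hr)
    push_cast at e
    rw [Ev_padd, mul_add, table_dot tV_ok (by simpa [tV] using hP) hr,
      table_dot tL_ok (by simpa [tL] using hG) hr, e]

theorem MajA.classL_ok {M : MajA} {c : List ℤ} (hd : 0 < M.den) (h : M.classL c = true) :
    classOK M.ms M.den c = true := by
  simp only [MajA.classL, Bool.and_eq_true, List.all_eq_true, List.mem_range,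
    decide_eq_true_eq] at h
  obtain ⟨⟨hP, hQ, hG⟩, hc⟩ := h
  refine classOK_of hd (DegLe.padd ?_ (DegLe.padd ?_ ?_)) fun r hr => ?_
  · exact DegLe.pmul (DegLe.pmul pV_deg pV_deg) (plev_deg _ 1 hP)
  · exact DegLe.pmul pV_deg (plev_deg _ 3 hQ)
  · exact DegLe.pmul pLbar_deg (plev_deg _ 4 hG)
  · have e := congrArg (fun z : ℤ => (z : ℚ)) (hc r hr)
    push_cast at e
    rw [Ev_padd, Ev_padd, mul_add, mul_add, table_dot tVV_ok (by simpa [tVV] using hP) hr,
      table_dot tV_ok (by simpa [tV] using hQ) hr,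
      table_dot tL_ok (by simpa [tL] using hG) hr, ← e]
    ring

theorem MajC.classL_ok {M : MajC} {c : List ℤ} (hd : 0 < M.den) (h : M.classL c = true) :
    classOK M.ms M.den c = true := by
  simp only [MajC.classL, Bool.and_eq_true, List.all_eq_true, List.mem_range,
    decide_eq_true_eq] at h
  obtain ⟨⟨hP, hQ, hG⟩, hc⟩ := h
  refine classOK_of hd (DegLe.padd ?_ (DegLe.padd ?_ ?_)) fun r hr => ?_
  · exact DegLe.pmul pC_deg (plev_deg _ 2 hP)
  · exact DegLe.pmul pV_deg (plev_deg _ 3 hQ)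
  · exact DegLe.pmul pLbar_deg (plev_deg _ 4 hG)
  · have e := congrArg (fun z : ℤ => (z : ℚ)) (hc r hr)
    push_cast at e
    rw [Ev_padd, Ev_padd, mul_add, mul_add, table_dot tC_ok (by simpa [tC] using hP) hr,
      table_dot tV_ok (by simpa [tV] using hQ) hr,
      table_dot tL_ok (by simpa [tL] using hG) hr, ← e]
    ring

end Vale.Agent.P154.Q3.End
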