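import Mathlib

/-!
# Certificates for pointwise majorants

A majorant is given by integer coefficient lists in `u = L̄ - 1` over a common denominator. Its
validity reduces to the nonnegativity of a few univariate polynomials in `t = 1 + u ≥ 0`, which is
certified by the signs of their coefficients after Möbius substitutions between break points.
-/

namespace Vale.Agent.P154.Q3.End

/-- Value of a coefficient list, constant term first. -/
def lev : List ℤ → ℝ → ℝ
  | [], _ => 0
  | c :: cs, x => c + x * lev cs x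

/-- Coefficientwise sum. -/
def ladd : List ℤ → List ℤ → List ℤ
  | [], q => q
  | a :: as, [] => a :: as
  | a :: as, b :: bs => (a + b) :: ladd as bs

/-- Scalar multiple. -/
def lscale (c : ℤ) (p : List ℤ) : List ℤ := p.map (c * ·)

/-- Product with `a + b x`. -/
def lmulLin (a b : ℤ) (p : List ℤ) : List ℤ := ladd (lscale a p) (0 :: lscale b p)

/-- The power `(a + b x) ^ n`. -/
def llinPow (a b : ℤ) : ℕ → List ℤ
  | 0 => [1]
  | n + 1 => lmulLin a b (llinPow a b n)

/-- Homogenised substitution of `(a + b x) / (q + r x)`. -/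
def hom (a b q r : ℤ) : List ℤ → List ℤ
  | [] => []
  | c :: cs => ladd (lscale c (llinPow q r cs.length)) (lmulLin a b (hom a b q r cs))

theorem lev_ladd (x : ℝ) : ∀ p q, lev (ladd p q) x = lev p x + lev q x
  | [], q => by simp [ladd, lev]
  | a :: as, [] => by simp [ladd, lev]
  | a :: as, b :: bs => by simp only [ladd, lev, lev_ladd x as bs]; push_cast; ring

theorem lev_lscale (c : ℤ) (x : ℝ) : ∀ p, lev (lscale c p) x = c * lev p x
  | [] => by simp [lscale, lev]
  | a :: as => by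
    have h : lscale c (a :: as) = c * a :: lscale c as := rfl
    simp only [h, lev, lev_lscale c x as]; push_cast; ring

theorem lev_lmulLin (a b : ℤ) (x : ℝ) (p : List ℤ) :
    lev (lmulLin a b p) x = (a + b * x) * lev p x := by
  simp only [lmulLin, lev_ladd, lev, lev_lscale]; push_cast; ring

theorem lev_llinPow (a b : ℤ) (x : ℝ) : ∀ n, lev (llinPow a b n) x = (a + b * x) ^ n
  | 0 => by simp [llinPow, lev]
  | n + 1 => by rw [llinPow, lev_lmulLin, lev_llinPow a b x n]; ring

theorem lev_hom {a b q r : ℤ} {x : ℝ} (h : (q : ℝ) + r * x ≠ 0) : ∀ p : List ℤ,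
    ((q : ℝ) + r * x) * lev (hom a b q r p) x =
      ((q : ℝ) + r * x) ^ p.length * lev p ((a + b * x) / (q + r * x))
  | [] => by simp [hom, lev]
  | c :: cs => by
    have ih := lev_hom (a := a) (b := b) h cs
    simp only [hom, lev, lev_ladd, lev_lscale, lev_llinPow, lev_lmulLin, List.length_cons]
    rw [mul_add, mul_left_comm _ ((a : ℝ) + b * x), ih]
    field_simp
    ring

/-- All coefficients are nonnegative. -/
def allNN (p : List ℤ) : Bool := p.all fun c => decide (0 ≤ c)

theorem lev_nonneg {p : List ℤ} (h : allNN p = true) {x : ℝ} (hx : 0 ≤ x) : 0 ≤ lev p x := by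
  induction p with
  | nil => simp [lev]
  | cons c cs ih =>
    simp only [allNN, List.all_cons, Bool.and_eq_true, decide_eq_true_eq] at h
    have h2 : 0 ≤ lev cs x := ih h.2
    have h1 : (0 : ℝ) ≤ c := by exact_mod_cast h.1
    simp only [lev]; positivity

/-- Nonnegativity on `[a / q, ∞)` through break points over the denominator `q`. -/
def nnFrom (q : ℕ) (p : List ℤ) : ℕ → List ℕ → Bool
  | a, [] => allNN (hom a 1 q 0 p)
  | a, b :: rest => decide (a < b) && allNN (hom a b q q p) && nnFrom q p b rest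

theorem lev_nonneg_of_hom {a b q r : ℤ} {p : List ℤ} (h : allNN (hom a b q r p) = true) {x : ℝ}
    (hx : 0 ≤ x) (hd : 0 < (q : ℝ) + r * x) : 0 ≤ lev p ((a + b * x) / (q + r * x)) := by
  have e := lev_hom (a := a) (b := b) hd.ne' p
  have : 0 ≤ ((q : ℝ) + r * x) ^ p.length * lev p ((a + b * x) / (q + r * x)) :=
    e ▸ mul_nonneg hd.le (lev_nonneg h hx)
  exact nonneg_of_mul_nonneg_right this (pow_pos hd _)

theorem nnFrom_sound {q : ℕ} {p : List ℤ} (hq : 0 < q) : ∀ (l : List ℕ) (a : ℕ),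
    nnFrom q p a l = true → ∀ t : ℝ, (a : ℝ) / q ≤ t → 0 ≤ lev p t := by
  intro l
  induction l with
  | nil =>
    intro a h t ht
    have hq' : (0 : ℝ) < q := by exact_mod_cast hq
    rw [div_le_iff₀ hq'] at ht
    have h0 := lev_nonneg_of_hom (x := t * q - a) h (by linarith) (by simpa using hq')
    convert h0 using 2
    push_cast; field_simp; ring
  | cons b rest ih =>
    intro a h t ht
    simp only [nnFrom, Bool.and_eq_true, decide_eq_true_eq] at h
    obtain ⟨⟨hab, hs⟩, hr⟩ := h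
    have hq' : (0 : ℝ) < q := by exact_mod_cast hq
    rcases le_or_gt ((b : ℝ) / q) t with hb | hb
    · exact ih b hr t hb
    · rw [div_le_iff₀ hq'] at ht
      rw [lt_div_iff₀ hq'] at hb
      have hy : 0 < (b : ℝ) - t * q := by linarith
      set s := (t * q - a) / (b - t * q) with hsd
      have hs0 : 0 ≤ s := div_nonneg (by linarith) hy.le
      have h0 := lev_nonneg_of_hom (x := s) hs hs0 (by push_cast; positivity)
      convert h0 using 2
      have hab' : (a : ℝ) < b := by exact_mod_cast hab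
      have e1 : s * (b - t * q) = t * q - a := div_mul_cancel₀ _ hy.ne'
      have hpos : (0 : ℝ) < ((q : ℤ) : ℝ) + ((q : ℤ) : ℝ) * s := by push_cast; positivity
      rw [eq_div_iff hpos.ne']
      push_cast
      linear_combination -e1

/-- A polynomial together with its break points over a denominator. -/
structure NNCert where
  q : ℕ
  pts : List ℕ

/-- Check nonnegativity on `[0, ∞)`. -/
def NNCert.check (c : NNCert) (p : List ℤ) : Bool := decide (0 < c.q) && nnFrom c.q p 0 c.pts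

theorem NNCert.sound {c : NNCert} {p : List ℤ} (h : c.check p = true) {t : ℝ} (ht : 0 ≤ t) :
    0 ≤ lev p t := by
  simp only [NNCert.check, Bool.and_eq_true, decide_eq_true_eq] at h
  exact nnFrom_sound h.1 _ 0 h.2 t (by simpa using ht)

/-- Change of variable from `u` to `t = 1 + u`. -/
def inT (p : List ℤ) : List ℤ := hom (-1) 1 1 0 p

theorem lev_inT (p : List ℤ) (t : ℝ) : lev (inT p) t = lev p (t - 1) := by
  have e := lev_hom (a := -1) (b := 1) (q := 1) (r := 0) (x := t) (by norm_num) p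
  simp only [inT]
  push_cast at e
  rw [show (-1 + 1 * t) / (1 + 0 * t) = t - 1 by ring] at e
  simpa using e

/-! ### Symmetric functions of three likelihoods -/

/-- The mean. -/
noncomputable def lbar (L : Fin 3 → ℝ) : ℝ := (L 0 + L 1 + L 2) / 3
/-- The sum of the squared deviations. -/
noncomputable def dev2 (L : Fin 3 → ℝ) : ℝ :=
  (L 0 - lbar L) ^ 2 + (L 1 - lbar L) ^ 2 + (L 2 - lbar L) ^ 2
/-- The sum of the cubed deviations. -/
noncomputable def dev3 (L : Fin 3 → ℝ) : ℝ :=
  (L 0 - lbar L) ^ 3 + (L 1 - lbar L) ^ 3 + (L 2 - lbar L) ^ 3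

variable {L : Fin 3 → ℝ}

theorem lbar_nonneg (h : ∀ i, 0 ≤ L i) : 0 ≤ lbar L := by
  have := h 0; have := h 1; have := h 2; unfold lbar; positivity

theorem dev2_nonneg : 0 ≤ dev2 L := by unfold dev2; positivity

theorem dev2_le (h : ∀ i, 0 ≤ L i) : dev2 L ≤ 6 * lbar L ^ 2 := by
  have := mul_nonneg (h 0) (h 1); have := mul_nonneg (h 1) (h 2); have := mul_nonneg (h 2) (h 0)
  unfold dev2 lbar; nlinarith

theorem dev3_le (h : ∀ i, 0 ≤ L i) : dev3 L ≤ lbar L * dev2 L := by
  have h0 := h 0; have h1 := h 1; have h2 := h 2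
  unfold dev2 dev3 lbar
  nlinarith [mul_nonneg (mul_nonneg h0 h1) h2, mul_nonneg h0 (sq_nonneg (L 1 - L 2)),
    mul_nonneg h1 (sq_nonneg (L 2 - L 0)), mul_nonneg h2 (sq_nonneg (L 0 - L 1)),
    mul_nonneg (add_nonneg h0 h1) (sq_nonneg (L 0 - L 1)),
    mul_nonneg (add_nonneg h1 h2) (sq_nonneg (L 1 - L 2)),
    mul_nonneg (add_nonneg h2 h0) (sq_nonneg (L 2 - L 0))]

theorem le_dev3 (h : ∀ i, 0 ≤ L i) : -(lbar L * dev2 L) / 2 ≤ dev3 L := by
  have h0 := h 0; have h1 := h 1; have h2 := h 2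
  unfold dev2 dev3 lbar
  rcases le_total (L 0) (L 1) with a | a <;> rcases le_total (L 1) (L 2) with b | b <;>
    rcases le_total (L 2) (L 0) with c | c <;>
    nlinarith [mul_nonneg h0 (mul_nonneg (sub_nonneg.2 a) (sub_nonneg.2 b)),
      mul_nonneg h1 (mul_nonneg (sub_nonneg.2 b) (sub_nonneg.2 c)),
      mul_nonneg h2 (mul_nonneg (sub_nonneg.2 c) (sub_nonneg.2 a)),
      mul_nonneg (mul_nonneg h0 h1) h2, mul_nonneg h0 (sq_nonneg (L 1 - L 2)),
      mul_nonneg h1 (sq_nonneg (L 2 - L 0)), mul_nonneg h2 (sq_nonneg (L 0 - L 1))]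

/-! ### The three majorants -/

/-- A majorant of `V / L̄`: `V P(u) + L̄ G(u)`, over the denominator `den`. -/
structure MajX where
  den : ℕ
  P : List ℤ
  G : List ℤ
  c0 : NNCert
  c6 : NNCert

/-- Check of the two vertex polynomials. -/
def MajX.check (m : MajX) : Bool :=
  m.c0.check (inT m.G) &&
  m.c6.check (ladd (ladd (lscale 6 (lmulLin 0 1 (inT m.P))) (inT m.G)) [-6 * (m.den : ℤ)])

theorem MajX.sound {m : MajX} (h : m.check = true) (hL : ∀ i, 0 ≤ L i) :
    (m.den : ℝ) * (dev2 L / lbar L) ≤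
      dev2 L * lev m.P (lbar L - 1) + lbar L * lev m.G (lbar L - 1) := by
  simp only [MajX.check, Bool.and_eq_true] at h
  set t := lbar L
  have ht : 0 ≤ t := lbar_nonneg hL
  have hV := dev2_nonneg (L := L)
  have hV6 := dev2_le hL
  rcases ht.lt_or_eq with tp | tz
  · have g0 := NNCert.sound h.1 ht
    have g6 := NNCert.sound h.2 ht
    simp only [lev_ladd, lev_lscale, lev_lmulLin, lev_inT, lev] at g0 g6
    push_cast at g0 g6
    rw [mul_div_assoc', div_le_iff₀ tp]
    nlinarith [mul_nonneg hV g6, mul_nonneg (sub_nonneg.2 hV6) g0]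
  · have : dev2 L = 0 := le_antisymm (by nlinarith [hV6, tz]) hV
    simp [← tz, this]

/-- A majorant of `V ^ 2 / L̄ ^ 3`: `V ^ 2 P(u) + V Q(u) + L̄ G(u)`. -/
structure MajA where
  den : ℕ
  P : List ℤ
  Q : List ℤ
  G : List ℤ
  /-- Denominator of the break points in `W`. -/
  m : ℕ
  first : NNCert
  pieces : List (ℕ × NNCert × NNCert)

/-- Coefficient of `W ^ 2`. -/
def MajA.cA (M : MajA) : List ℤ :=
  ladd (lmulLin 0 1 (lmulLin 0 1 (lmulLin 0 1 (inT M.P)))) [-(M.den : ℤ)]
/-- Coefficient of `W`. -/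
def MajA.cB (M : MajA) : List ℤ := lmulLin 0 1 (inT M.Q)
/-- Value at `W = a / m`, times `m ^ 2`. -/
def MajA.atW (M : MajA) (a : ℕ) : List ℤ :=
  ladd (ladd (lscale ((a : ℤ) * a) M.cA) (lscale ((a : ℤ) * M.m) M.cB))
    (lscale ((M.m : ℤ) * M.m) (inT M.G))
/-- Middle Bernstein coefficient, times `2 m ^ 2`. -/
def MajA.mid (M : MajA) (a b : ℕ) : List ℤ :=
  ladd (ladd (lscale (2 * (a : ℤ) * b) M.cA) (lscale ((M.m : ℤ) * (a + b)) M.cB))
    (lscale (2 * (M.m : ℤ) * M.m) (inT M.G))

/-- Pieces covering `[a / m, 6]`. -/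
def MajA.chkFrom (M : MajA) : ℕ → List (ℕ × NNCert × NNCert) → Bool
  | a, [] => decide (6 * M.m ≤ a)
  | a, (b, cm, cb) :: rest =>
    decide (a < b) && cm.check (M.mid a b) && cb.check (M.atW b) && M.chkFrom b rest

/-- Full check. -/
def MajA.check (M : MajA) : Bool :=
  decide (0 < M.m) && M.first.check (M.atW 0) && M.chkFrom 0 M.pieces

theorem MajA.chkFrom_sound {M : MajA} (hm : 0 < M.m) {t : ℝ} (ht : 0 ≤ t) :
    ∀ (l : List (ℕ × NNCert × NNCert)) (a : ℕ), M.chkFrom a l = true → 0 ≤ lev (M.atW a) t →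
      ∀ W : ℝ, (a : ℝ) / M.m ≤ W → W ≤ 6 →
        0 ≤ W ^ 2 * lev M.cA t + W * lev M.cB t + lev (inT M.G) t := by
  intro l
  have hm' : (0 : ℝ) < M.m := by exact_mod_cast hm
  induction l with
  | nil =>
    intro a h h0 W hW hW6
    simp only [MajA.chkFrom, decide_eq_true_eq] at h
    have h6 : (6 : ℝ) * M.m ≤ a := by exact_mod_cast h
    rw [div_le_iff₀ hm'] at hW
    have hWa : W * M.m = a := le_antisymm ((mul_le_mul_of_nonneg_right hW6 hm'.le).trans h6) hW
    simp only [MajA.atW, lev_ladd, lev_lscale] at h0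
    push_cast at h0
    rw [← hWa] at h0
    nlinarith [pow_pos hm' 2]
  | cons p rest ih =>
    obtain ⟨b, cm, cb⟩ := p
    intro a h h0 W hW hW6
    simp only [MajA.chkFrom, Bool.and_eq_true, decide_eq_true_eq] at h
    obtain ⟨⟨⟨hab, hcm⟩, hcb⟩, hr⟩ := h
    have hb := NNCert.sound hcb ht
    rcases le_or_gt ((b : ℝ) / M.m) W with hbW | hbW
    · exact ih b hr hb W hbW hW6
    have hmid := NNCert.sound hcm ht
    rw [div_le_iff₀ hm'] at hW
    rw [lt_div_iff₀ hm'] at hbW
    simp only [MajA.atW, MajA.mid, lev_ladd, lev_lscale] at h0 hb hmid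
    push_cast at h0 hb hmid
    have hd : (0 : ℝ) < (b - a) ^ 2 := by
      have : (a : ℝ) < b := by exact_mod_cast hab
      exact pow_pos (sub_pos.2 this) 2
    have x0 : 0 ≤ (b : ℝ) - W * M.m := by linarith
    have x1 : 0 ≤ W * M.m - (a : ℝ) := by linarith
    have key : 0 ≤ ((b : ℝ) - a) ^ 2 * (M.m : ℝ) ^ 2 *
        (W ^ 2 * lev M.cA t + W * lev M.cB t + lev (inT M.G) t) := by
      have := mul_nonneg (mul_nonneg x0 x0) h0
      have := mul_nonneg (mul_nonneg x0 x1) hmid
      have := mul_nonneg (mul_nonneg x1 x1) hb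
      nlinarith
    exact nonneg_of_mul_nonneg_right key (by positivity)

theorem MajA.sound {M : MajA} (h : M.check = true) (hL : ∀ i, 0 ≤ L i) :
    (M.den : ℝ) * (dev2 L ^ 2 / lbar L ^ 3) ≤ dev2 L ^ 2 * lev M.P (lbar L - 1) +
      dev2 L * lev M.Q (lbar L - 1) + lbar L * lev M.G (lbar L - 1) := by
  simp only [MajA.check, Bool.and_eq_true, decide_eq_true_eq] at h
  obtain ⟨⟨hm, hf⟩, hc⟩ := h
  set t := lbar L
  have ht : 0 ≤ t := lbar_nonneg hL
  have hV := dev2_nonneg (L := L)
  have hV6 := dev2_le hL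
  rcases ht.lt_or_eq with tp | tz
  · have key := MajA.chkFrom_sound hm ht _ 0 hc (NNCert.sound hf ht) (dev2 L / t ^ 2)
      (by simpa using div_nonneg hV (sq_nonneg t)) ((div_le_iff₀ (pow_pos tp 2)).2 hV6)
    simp only [MajA.cA, MajA.cB, lev_ladd, lev_lmulLin, lev_inT, lev] at key
    push_cast at key
    rw [mul_div_assoc', div_le_iff₀ (pow_pos tp 3)]
    field_simp at key
    nlinarith [key, pow_pos tp 2, pow_pos tp 3, pow_pos tp 4]
  · have : dev2 L = 0 := le_antisymm (by nlinarith [hV6, tz]) hV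
    simp [← tz, this]

/-- A majorant of `± C / L̄ ^ 2`: `C P(u) + V Q(u) + L̄ G(u)`. -/
structure MajC where
  den : ℕ
  /-- The sign times the denominator. -/
  sden : ℤ
  P : List ℤ
  Q : List ℤ
  G : List ℤ
  c0 : NNCert
  cu : NNCert
  cl : NNCert

/-- Value at the vertex `(W, K) = (6, k)`. -/
def MajC.vertex (M : MajC) (k : ℤ) : List ℤ :=
  ladd (ladd (lscale k (ladd (lmulLin 0 1 (lmulLin 0 1 (inT M.P))) [-M.sden]))
    (lscale 6 (lmulLin 0 1 (inT M.Q)))) (inT M.G)

/-- Check of the three vertex polynomials. -/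
def MajC.check (M : MajC) : Bool :=
  (M.sden == (M.den : ℤ) || M.sden == -(M.den : ℤ)) && M.c0.check (inT M.G) &&
    M.cu.check (M.vertex 6) && M.cl.check (M.vertex (-3))

theorem MajC.sound {M : MajC} (h : M.check = true) (hL : ∀ i, 0 ≤ L i) :
    (M.sden : ℝ) * (dev3 L / lbar L ^ 2) ≤ dev3 L * lev M.P (lbar L - 1) +
      dev2 L * lev M.Q (lbar L - 1) + lbar L * lev M.G (lbar L - 1) := by
  simp only [MajC.check, Bool.and_eq_true] at h
  obtain ⟨⟨⟨-, h0⟩, hu⟩, hl⟩ := h
  set t := lbar L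
  have ht : 0 ≤ t := lbar_nonneg hL
  have hV := dev2_nonneg (L := L)
  have hV6 := dev2_le hL
  have hCu := dev3_le hL
  have hCl := le_dev3 hL
  rcases ht.lt_or_eq with tp | tz
  · have g0 := NNCert.sound h0 ht
    have gu := NNCert.sound hu ht
    have gl := NNCert.sound hl ht
    simp only [MajC.vertex, lev_ladd, lev_lscale, lev_lmulLin, lev_inT, lev] at g0 gu gl
    push_cast at g0 gu gl
    have b0 : 0 ≤ 6 * t ^ 2 - dev2 L := by linarith
    have bu : 0 ≤ 2 * dev3 L + t * dev2 L := by linarith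
    have bl : 0 ≤ t * dev2 L - dev3 L := by linarith
    rw [mul_div_assoc', div_le_iff₀ (pow_pos tp 2)]
    nlinarith [mul_nonneg bu gu, mul_nonneg bl gl, mul_nonneg (mul_nonneg b0 ht) g0]
  · have : dev2 L = 0 := le_antisymm (by nlinarith [hV6, tz]) hV
    have h3 : dev3 L = 0 := le_antisymm (by nlinarith [hCu, tz, this]) (by nlinarith [hCl, tz, this])
    simp [← tz, this, h3]

end Vale.Agent.P154.Q3.End
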