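import Vale.Agent.P154.End.Node
import Vale.Agent.P154.End.Majorant

/-!
# From a checked majorant to a list of monomials

Polynomials in three variables are association lists with merged exponents.
-/

namespace Vale.Agent.P154.Q3.End

open scoped BigOperators

/-- Add one term. -/
def addTerm (p : Exp3 × ℚ) : List (Exp3 × ℚ) → List (Exp3 × ℚ)
  | [] => [p]
  | q :: qs => if p.1 = q.1 then (q.1, p.2 + q.2) :: qs else q :: addTerm p qs

/-- Sum. -/
def padd (a b : List (Exp3 × ℚ)) : List (Exp3 × ℚ) := a.foldr addTerm b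

/-- Scalar multiple. -/
def pscale (c : ℚ) (a : List (Exp3 × ℚ)) : List (Exp3 × ℚ) := a.map fun p => (p.1, c * p.2)

/-- Product. -/
def pmul (a b : List (Exp3 × ℚ)) : List (Exp3 × ℚ) :=
  a.foldr (fun p acc => padd (b.map fun q => (p.1 + q.1, p.2 * q.2)) acc) []

/-- The mean of the three variables. -/
def pLbar : List (Exp3 × ℚ) :=
  [((1, 0, 0), 1 / 3), ((0, 1, 0), 1 / 3), ((0, 0, 1), 1 / 3)]

/-- The mean less one. -/
def pU : List (Exp3 × ℚ) := addTerm ((0, 0, 0), -1) pLbar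

/-- A deviation from the mean. -/
def pDev (e : Exp3) : List (Exp3 × ℚ) := addTerm (e, 1) (pscale (-1) pLbar)

/-- The sum of the squared deviations. -/
def pV : List (Exp3 × ℚ) :=
  padd (pmul (pDev (1, 0, 0)) (pDev (1, 0, 0)))
    (padd (pmul (pDev (0, 1, 0)) (pDev (0, 1, 0))) (pmul (pDev (0, 0, 1)) (pDev (0, 0, 1))))

/-- The sum of the cubed deviations. -/
def pC : List (Exp3 × ℚ) :=
  padd (pmul (pDev (1, 0, 0)) (pmul (pDev (1, 0, 0)) (pDev (1, 0, 0))))
    (padd (pmul (pDev (0, 1, 0)) (pmul (pDev (0, 1, 0)) (pDev (0, 1, 0))))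
      (pmul (pDev (0, 0, 1)) (pmul (pDev (0, 0, 1)) (pDev (0, 0, 1)))))

/-- A coefficient list evaluated at the mean less one. -/
def plev : List ℤ → List (Exp3 × ℚ)
  | [] => []
  | c :: cs => addTerm ((0, 0, 0), (c : ℚ)) (pmul pU (plev cs))

/-- All exponent sums are at most five. -/
def degOK (ms : List (Exp3 × ℚ)) : Bool := ms.all fun p => decide (p.1.1 + p.1.2.1 + p.1.2.2 ≤ 5)

variable (l : Fin 3 → ℝ)

theorem evalP_cons (p : Exp3 × ℚ) (ms : List (Exp3 × ℚ)) :
    evalP (p :: ms) l = (p.2 : ℝ) * monL p.1 l + evalP ms l := by simp [evalP]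

theorem evalP_addTerm (p : Exp3 × ℚ) : ∀ ms, evalP (addTerm p ms) l =
    (p.2 : ℝ) * monL p.1 l + evalP ms l
  | [] => by simp [addTerm, evalP]
  | q :: qs => by
    rw [addTerm]
    split
    · next h => rw [evalP_cons, evalP_cons, h]; push_cast; ring
    · rw [evalP_cons, evalP_cons, evalP_addTerm p qs]; ring

theorem evalP_padd (a b : List (Exp3 × ℚ)) : evalP (padd a b) l = evalP a l + evalP b l := by
  induction a with
  | nil => simp [padd, evalP]
  | cons p a ih =>
    rw [padd, List.foldr_cons, evalP_addTerm, ← padd, ih, evalP_cons]; ring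

theorem evalP_pscale (c : ℚ) : ∀ a, evalP (pscale c a) l = (c : ℝ) * evalP a l
  | [] => by simp [pscale, evalP]
  | p :: a => by
    rw [show pscale c (p :: a) = (p.1, c * p.2) :: pscale c a from rfl, evalP_cons, evalP_cons,
      evalP_pscale c a]
    push_cast; ring

theorem monL_add (a b : Exp3) : monL (a + b) l = monL a l * monL b l := by
  simp only [monL, Prod.fst_add, Prod.snd_add, pow_add]; ring

theorem evalP_shift (p : Exp3 × ℚ) : ∀ b : List (Exp3 × ℚ),
    evalP (b.map fun q => (p.1 + q.1, p.2 * q.2)) l = (p.2 : ℝ) * monL p.1 l * evalP b l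
  | [] => by simp [evalP]
  | q :: b => by
    rw [List.map_cons, evalP_cons, evalP_cons, evalP_shift p b, monL_add]
    push_cast; ring

theorem evalP_pmul (a b : List (Exp3 × ℚ)) : evalP (pmul a b) l = evalP a l * evalP b l := by
  induction a with
  | nil => simp [pmul, evalP]
  | cons p a ih =>
    rw [pmul, List.foldr_cons, evalP_padd, ← pmul, ih, evalP_shift, evalP_cons]; ring

theorem evalP_pLbar : evalP pLbar l = lbar l := by
  simp [pLbar, evalP, monL, lbar]; ring

theorem evalP_pDev :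
    evalP (pDev (1, 0, 0)) l = l 0 - lbar l ∧ evalP (pDev (0, 1, 0)) l = l 1 - lbar l ∧
      evalP (pDev (0, 0, 1)) l = l 2 - lbar l := by
  simp only [pDev, evalP_addTerm, evalP_pscale, evalP_pLbar]
  refine ⟨?_, ?_, ?_⟩ <;> simp [monL] <;> ring

theorem evalP_pV : evalP pV l = dev2 l := by
  obtain ⟨a, b, c⟩ := evalP_pDev l
  simp only [pV, evalP_padd, evalP_pmul, a, b, c, dev2]; ring

theorem evalP_pC : evalP pC l = dev3 l := by
  obtain ⟨a, b, c⟩ := evalP_pDev l
  simp only [pC, evalP_padd, evalP_pmul, a, b, c, dev3]; ring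

theorem evalP_plev : ∀ cs, evalP (plev cs) l = lev cs (lbar l - 1)
  | [] => by simp [plev, evalP, lev]
  | c :: cs => by
    rw [plev, evalP_addTerm, evalP_pmul, evalP_plev cs, lev]
    simp only [pU, evalP_addTerm, evalP_pLbar, monL]
    push_cast; ring

variable {l}

theorem rf_eq_dev (hl : ∀ i, 0 ≤ l i) :
    rf P2 l = dev2 l / lbar l ∧ rf P4 l = dev2 l ^ 2 / lbar l ^ 3 ∧
      rf P3 l = dev3 l / lbar l ^ 2 := by
  rcases (tot_nonneg hl).eq_or_lt with ht | ht
  · simp [rf, eq_zero_of_tot hl ht.symm, lbar, dev2, dev3, tot]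
  · have ht' : (l 0 + l 1 + l 2) ≠ 0 := ne_of_gt ht
    refine ⟨?_, ?_, ?_⟩ <;>
      simp only [rf, P4, P3, P2, rr, dev2, dev3, lbar, tot] <;> field_simp

/-- The monomials of a majorant of `V / L̄`. -/
def MajX.ms (M : MajX) : List (Exp3 × ℚ) :=
  pscale (1 / M.den) (padd (pmul pV (plev M.P)) (pmul pLbar (plev M.G)))

/-- The monomials of a majorant of `V ^ 2 / L̄ ^ 3`. -/
def MajA.ms (M : MajA) : List (Exp3 × ℚ) :=
  pscale (1 / M.den)
    (padd (pmul (pmul pV pV) (plev M.P)) (padd (pmul pV (plev M.Q)) (pmul pLbar (plev M.G))))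

/-- The monomials of a majorant of `± C / L̄ ^ 2`. -/
def MajC.ms (M : MajC) : List (Exp3 × ℚ) :=
  pscale (1 / M.den) (padd (pmul pC (plev M.P)) (padd (pmul pV (plev M.Q)) (pmul pLbar (plev M.G))))

theorem deg_of_ok {ms : List (Exp3 × ℚ)} (h : degOK ms = true) :
    ∀ p ∈ ms, p.1.1 + p.1.2.1 + p.1.2.2 ≤ 5 := fun p hp => by
  simpa using List.all_eq_true.1 h p hp

theorem MajX.maj {M : MajX} (hd : 0 < M.den) (h : M.check = true) (hk : degOK M.ms = true) :
    Maj P2 M.ms := by
  refine ⟨fun l hl => ?_, deg_of_ok hk⟩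
  have hd' : (0 : ℝ) < M.den := by exact_mod_cast hd
  rw [(rf_eq_dev hl).1, MajX.ms, evalP_pscale, evalP_padd, evalP_pmul, evalP_pmul, evalP_plev,
    evalP_plev, evalP_pV, evalP_pLbar]
  push_cast
  rw [one_div, le_inv_mul_iff₀ hd']
  exact MajX.sound h hl

theorem MajA.maj {M : MajA} (hd : 0 < M.den) (h : M.check = true) (hk : degOK M.ms = true) :
    Maj P4 M.ms := by
  refine ⟨fun l hl => ?_, deg_of_ok hk⟩
  have hd' : (0 : ℝ) < M.den := by exact_mod_cast hd
  rw [(rf_eq_dev hl).2.1, MajA.ms, evalP_pscale, evalP_padd, evalP_padd, evalP_pmul, evalP_pmul,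
    evalP_pmul, evalP_pmul, evalP_plev, evalP_plev, evalP_plev, evalP_pV, evalP_pLbar]
  push_cast
  rw [one_div, le_inv_mul_iff₀ hd', ← sq, ← add_assoc]
  exact MajA.sound h hl

theorem MajC.maj {M : MajC} {s : ℤ} (hd : 0 < M.den) (hs : M.sden = s * M.den)
    (h : M.check = true) (hk : degOK M.ms = true) :
    Maj (fun r => (s : ℝ) * P3 r) M.ms := by
  refine ⟨fun l hl => ?_, deg_of_ok hk⟩
  have hd' : (0 : ℝ) < M.den := by exact_mod_cast hd
  have e : rf (fun r => (s : ℝ) * P3 r) l = (s : ℝ) * (dev3 l / lbar l ^ 2) := by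
    rw [← (rf_eq_dev hl).2.2]; simp only [rf]; ring
  rw [e, MajC.ms, evalP_pscale, evalP_padd, evalP_padd, evalP_pmul, evalP_pmul, evalP_pmul,
    evalP_plev, evalP_plev, evalP_plev, evalP_pC, evalP_pV, evalP_pLbar]
  push_cast
  rw [one_div, le_inv_mul_iff₀ hd', ← mul_assoc, ← add_assoc]
  have := MajC.sound h hl
  rw [hs] at this
  push_cast at this
  linarith

end Vale.Agent.P154.Q3.End
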