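import Vale.Agent.P154.End.Limit
import Vale.Agent.P154.End.Poly
import Vale.Agent.P154.End.Box

/-!
# From a monomial list to the fourteen classes of linear forms

Exponents with equal linear forms `S4` are merged, so that a node sum becomes the sum checked by
`Box.check`.
-/

namespace Vale.Agent.P154.Q3.End

open scoped BigOperators

/-- Class of a decreasing exponent triple. -/
def clsSorted : ℕ → ℕ → ℕ → ℕ
  | 2, 0, 0 => 3
  | 1, 1, 0 => 1
  | 3, 0, 0 => 7
  | 2, 1, 0 => 4
  | 1, 1, 1 => 2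
  | 4, 0, 0 => 11
  | 3, 1, 0 => 8
  | 2, 2, 0 => 5
  | 2, 1, 1 => 2
  | 5, 0, 0 => 13
  | 4, 1, 0 => 12
  | 3, 2, 0 => 10
  | 3, 1, 1 => 9
  | 2, 2, 1 => 6
  | _, _, _ => 0

/-- Class of an exponent triple. -/
def clsIdx (a : Exp3) : ℕ :=
  clsSorted (max a.1 (max a.2.1 a.2.2))
    (a.1 + a.2.1 + a.2.2 - max a.1 (max a.2.1 a.2.2) - min a.1 (min a.2.1 a.2.2))
    (min a.1 (min a.2.1 a.2.2))

theorem clsIdx_spec (a : Exp3) (ha : a.1 + a.2.1 + a.2.2 ≤ 5) :
    clsIdx a < 14 ∧ ∀ x y z w : ℝ,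
      S4 a x y z w = dotL (cls.getD (clsIdx a) []) [x, y, z, w] / 36 := by
  obtain ⟨i, j, k⟩ := a
  simp only at ha
  have hi : i ≤ 5 := by omega
  interval_cases i <;> (have hj : j ≤ 5 := by omega) <;> interval_cases j <;>
    (have hk : k ≤ 5 := by omega) <;> interval_cases k <;>
    first
    | omega
    | (refine ⟨by decide, fun x y z w => ?_⟩
       simp [S4, clsIdx, clsSorted, cls, dotL, Nat.choose]
       try ring)

/-- Coefficient of one class. -/
def classSum (ms : List (Exp3 × ℚ)) (r : ℕ) : ℚ :=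
  ((ms.filter fun p => clsIdx p.1 == r).map fun p => p.2).sum

/-- The class vector `c` over the denominator `den` belongs to `ms`. -/
def classOK (ms : List (Exp3 × ℚ)) (den : ℕ) (c : List ℤ) : Bool :=
  degOK ms && (List.range 14).all fun r => decide ((den : ℚ) * classSum ms r = (c.getD r 0 : ℚ))

theorem sum_classes (F : ℕ → ℝ) : ∀ ms : List (Exp3 × ℚ), (∀ p ∈ ms, clsIdx p.1 < 14) →
    ∑ r ∈ Finset.range 14, (classSum ms r : ℝ) * F r =
      (ms.map fun p => (p.2 : ℝ) * F (clsIdx p.1)).sum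
  | [], _ => by simp [classSum]
  | p :: ms, h => by
    have ih := sum_classes F ms fun q hq => h q (List.mem_cons_of_mem _ hq)
    have e : ∀ r, (classSum (p :: ms) r : ℝ) =
        (if clsIdx p.1 = r then (p.2 : ℝ) else 0) + classSum ms r := fun r => by
      rcases eq_or_ne (clsIdx p.1) r with hr | hr
      · simp [classSum, hr]
      · simp [classSum, hr]
    simp only [e, add_mul, Finset.sum_add_distrib, ih, List.map_cons, List.sum_cons]
    simp [ite_mul, h p (List.mem_cons_self ..)]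

theorem classOK_sum {ms : List (Exp3 × ℚ)} {den : ℕ} {c : List ℤ} (h : classOK ms den c = true)
    (F : ℝ → ℝ) (x y z w : ℝ) :
    (den : ℝ) * (ms.map fun p => (p.2 : ℝ) * F (S4 p.1 x y z w)).sum =
      ∑ r ∈ Finset.range 14, (c.getD r 0 : ℝ) * F (dotL (cls.getD r []) [x, y, z, w] / 36) := by
  simp only [classOK, Bool.and_eq_true, List.all_eq_true, List.mem_range, decide_eq_true_eq] at h
  obtain ⟨hk, hc⟩ := h
  have hd := deg_of_ok hk
  rw [List.map_congr_left (g := fun p => (p.2 : ℝ) *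
      F (dotL (cls.getD (clsIdx p.1) []) [x, y, z, w] / 36))
      fun p hp => by rw [(clsIdx_spec p.1 (hd p hp)).2],
    ← sum_classes (fun r => F (dotL (cls.getD r []) [x, y, z, w] / 36)) ms
      fun p hp => (clsIdx_spec p.1 (hd p hp)).1, Finset.mul_sum]
  refine Finset.sum_congr rfl fun r hr => ?_
  have := congrArg (fun q : ℚ => (q : ℝ)) (hc r (Finset.mem_range.1 hr))
  push_cast at this
  rw [← mul_assoc, this]

/-- A checked box bounds the node sum by the negated affine part. -/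
theorem Box.node_le {b : Box} {ms : List (Exp3 × ℚ)} {den : ℕ} {c : List ℤ} {q0 : ℤ} {q : List ℤ}
    (hm : classOK ms den c = true) (hb : b.check c q0 q = true) {t : ℝ} {rs : List ℝ}
    (ht : b.D.Mem t) (hr : InCoords b.cs rs) {x y z w : ℝ} (hp : b.point t rs = [x, y, z, w]) :
    (den : ℝ) * (ms.map fun p => (p.2 : ℝ) * b.mdl.F (S4 p.1 x y z w)).sum +
      q0 + dotL q [x, y, z, w] ≤ 0 := by
  rw [classOK_sum hm b.mdl.F, ← hp]
  exact b.check_sound hb ht hr

theorem gwNode_eq (ms : List (Exp3 × ℚ)) (x y z w : ℝ) :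
    gwNode ms x y z w = (ms.map fun p => (p.2 : ℝ) * Mdl.poisson.F (S4 p.1 x y z w)).sum := rfl

theorem regNode_eq (k : ℕ) (ms : List (Exp3 × ℚ)) (x y z w : ℝ) :
    regNode k ms x y z w =
      (ms.map fun p => (p.2 : ℝ) * (Mdl.regular k).F (S4 p.1 x y z w)).sum := rfl

end Vale.Agent.P154.Q3.End
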