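import Vale.Agent.P154.End.Table

/-!
# Polynomial upper bounds on a box, and Taylor bounds for the two offspring models
-/

namespace Vale.Agent.P154.Q3.End

open scoped BigOperators

/-- Integer dot product. -/
def dotI : List ℤ → List ℤ → ℤ
  | a :: as, b :: bs => Int.add (Int.mul a b) (dotI as bs)
  | _, _ => 0

/-- Pairing of exponents with integers. -/
def dotN : List ℕ → List ℤ → ℤ
  | a :: as, b :: bs => Int.add (Int.mul (a : ℤ) b) (dotN as bs)
  | _, _ => 0

theorem dotI_eq_sum : ∀ {n : ℕ} {a b : List ℤ}, a.length = n → b.length = n →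
    dotI a b = ∑ r ∈ Finset.range n, a.getD r 0 * b.getD r 0
  | 0, [], [], _, _ => rfl
  | n + 1, x :: a, y :: b, ha, hb => by
    rw [Finset.sum_range_succ']
    simp only [List.getD_cons_succ, List.getD_cons_zero]
    rw [← dotI_eq_sum (n := n) (Nat.succ.inj ha) (Nat.succ.inj hb)]
    simp only [dotI, Int.add_def, Int.mul_def]
    ring

/-- Evaluate a natural number before passing it on. -/
def withNat {α : Type} (n : ℕ) (k : ℕ → α) : α :=
  match n with
  | 0 => k 0
  | m + 1 => k (m + 1)

/-- Evaluate an integer before passing it on. -/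
def withInt {α : Type} (x : ℤ) (k : ℤ → α) : α :=
  match x with
  | .ofNat n => withNat n fun n => k (.ofNat n)
  | .negSucc n => withNat n fun n => k (.negSucc n)

/-- Evaluate a list of integers before passing it on. -/
def withList {α : Type} : List ℤ → (List ℤ → α) → α
  | [], k => k []
  | x :: xs, k => withInt x fun x => withList xs fun xs => k (x :: xs)

/-- Evaluate rows before passing them on. -/
def withRows {α : Type} : List (List ℤ × ℤ) → (List (List ℤ × ℤ) → α) → α
  | [], k => k []
  | x :: xs, k =>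
    withList x.1 fun a => withInt x.2 fun e => withRows xs fun xs => k ((a, e) :: xs)

/-- Evaluate an interval before passing it on. -/
def withIv {α : Type} (I : Iv) (k : Iv → α) : α :=
  withInt I.1 fun a => withInt I.2 fun b => k (a, b)

theorem withNat_eq {α : Type} (n : ℕ) (k : ℕ → α) : withNat n k = k n := by cases n <;> rfl

theorem withInt_eq {α : Type} (x : ℤ) (k : ℤ → α) : withInt x k = k x := by
  cases x <;> simp only [withInt, withNat_eq]

theorem withIv_eq {α : Type} (I : Iv) (k : Iv → α) : withIv I k = k I := by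
  simp only [withIv, withInt_eq]

theorem withList_eq {α : Type} : ∀ (l : List ℤ) (k : List ℤ → α), withList l k = k l
  | [], k => rfl
  | x :: xs, k => by simp only [withList, withInt_eq, withList_eq xs]

theorem withRows_eq {α : Type} : ∀ (l : List (List ℤ × ℤ)) (k : List (List ℤ × ℤ) → α),
    withRows l k = k l
  | [], k => rfl
  | (a, e) :: xs, k => by simp only [withRows, withList_eq, withInt_eq, withRows_eq xs]

/-- A coordinate: its weight in `δ` and the interval of its cofactor. -/
abbrev Coord := ℕ × Iv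

/-- The coordinates at a parameter point. -/
def coordsAt (δ : ℝ) : List Coord → List ℝ → List ℝ
  | c :: cs, r :: rs => δ ^ c.1 * r :: coordsAt δ cs rs
  | _, _ => []

/-- The cofactors lie in their intervals. -/
def InCoords : List Coord → List ℝ → Prop
  | [], rs => rs = []
  | c :: cs, r :: rs => c.2.Mem r ∧ InCoords cs rs
  | _ :: _, [] => False

/-- Total weight and product interval of a monomial. -/
def monI : List ℕ → List Coord → ℕ × Iv
  | i :: is, c :: cs => withIv (Iv.pow c.2 i) fun P => withIv (monI is cs).2 fun J =>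
    (c.1 * i + (monI is cs).1, Iv.mul P J)
  | _, _ => (0, (1, 1))

theorem monI_sound (δ : ℝ) : ∀ (m : List ℕ) (cs : List Coord) (rs : List ℝ), InCoords cs rs →
    ∃ v, (monI m cs).2.Mem v ∧ mval m (coordsAt δ cs rs) = δ ^ (monI m cs).1 * v
  | [], cs, rs, _ => ⟨1, by simp [monI, Iv.Mem], by simp [mval, monI]⟩
  | i :: is, [], rs, h => ⟨1, by simp [monI, Iv.Mem], by simp [mval, monI, coordsAt]⟩
  | i :: is, c :: cs, [], h => absurd h (by simp [InCoords])
  | i :: is, c :: cs, r :: rs, h => by
    obtain ⟨v, hv, e⟩ := monI_sound δ is cs rs h.2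
    refine ⟨r ^ i * v, by simp only [monI, withIv_eq]; exact Iv.mul_mem (Iv.pow_mem h.1 i) hv, ?_⟩
    simp only [mval, monI, withIv_eq, coordsAt, e]
    ring

/-- An upper bound of `C * x` for `x` in `I`. -/
def scaleHi (C : ℤ) (I : Iv) : ℤ :=
  match C with
  | .ofNat _ => Int.mul C I.2
  | .negSucc _ => Int.mul C I.1

theorem scaleHi_sound {C : ℤ} {I : Iv} {x : ℝ} (h : I.Mem x) : (C : ℝ) * x ≤ (scaleHi C I : ℝ) := by
  cases C with
  | ofNat n =>
    simp only [scaleHi, Int.mul_def, Int.ofNat_eq_natCast]
    push_cast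
    exact mul_le_mul_of_nonneg_left h.2 (Nat.cast_nonneg n)
  | negSucc n =>
    simp only [scaleHi, Int.mul_def]
    push_cast
    exact mul_le_mul_of_nonpos_left h.1 (by linarith [(Nat.cast_nonneg n : (0 : ℝ) ≤ n)])

/-- One monomial term divided by `δ ^ s`, bounded above. -/
def termHi (D : Iv) (s : ℕ) (cs : List Coord) (m : List ℕ) (C : ℤ) : Option ℤ :=
  withInt C fun C =>
  if C = 0 then some 0
  else if s ≤ (monI m cs).1 then
    withIv (monI m cs).2 fun J => withIv (Iv.pow D ((monI m cs).1 - s)) fun P =>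
      some (scaleHi C (Iv.mul P J))
  else none

theorem termHi_sound {D : Iv} {δ : ℝ} (hδ : D.Mem δ) (h0 : 0 ≤ δ) {s : ℕ} {cs : List Coord}
    {rs : List ℝ} (hr : InCoords cs rs) {m : List ℕ} {C u : ℤ}
    (h : termHi D s cs m C = some u) :
    (C : ℝ) * mval m (coordsAt δ cs rs) ≤ δ ^ s * u := by
  simp only [termHi, withInt_eq, withIv_eq] at h
  split_ifs at h with hC hs
  · obtain rfl := Option.some.inj h
    simp [hC]
  · obtain rfl := Option.some.inj h
    obtain ⟨v, hv, e⟩ := monI_sound δ m cs rs hr
    rw [e, ← Nat.add_sub_cancel' hs, pow_add, mul_assoc (δ ^ s), mul_left_comm]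
    rw [Nat.add_sub_cancel' hs]
    exact mul_le_mul_of_nonneg_left (scaleHi_sound (Iv.mul_mem (Iv.pow_mem hδ _) hv))
      (pow_nonneg h0 s)

/-- The sum over one layer. -/
def layerHi (D : Iv) (s : ℕ) (cs : List Coord) (col : List ℤ) (extra : List ℕ → ℤ) :
    Layer → Option ℤ
  | [] => some 0
  | p :: ps =>
    match termHi D s cs p.1 (Int.add (dotI col p.2) (extra p.1)), layerHi D s cs col extra ps with
    | some a, some b => some (Int.add a b)
    | _, _ => none

theorem layerHi_sound {D : Iv} {δ : ℝ} (hδ : D.Mem δ) (h0 : 0 ≤ δ) {s : ℕ} {cs : List Coord}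
    {rs : List ℝ} (hr : InCoords cs rs) {col : List ℤ} {extra : List ℕ → ℤ} :
    ∀ (W : Layer) (u : ℤ), layerHi D s cs col extra W = some u →
      (W.map fun p => ((dotI col p.2 + extra p.1 : ℤ) : ℝ) * mval p.1 (coordsAt δ cs rs)).sum ≤
        δ ^ s * u
  | [], u, h => by
    simp only [layerHi, Option.some.injEq] at h
    simp [← h]
  | p :: ps, u, h => by
    simp only [layerHi, Int.add_def] at h
    split at h
    · rename_i a b ha hb
      obtain rfl := Option.some.inj h
      rw [List.map_cons, List.sum_cons]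
      push_cast
      rw [mul_add]
      have := termHi_sound hδ h0 hr ha
      have := layerHi_sound hδ h0 hr ps b hb
      push_cast at *
      linarith
    · simp at h

/-- The offspring model: Poisson in scaled variables, or regular of arity `d`. -/
inductive Mdl where
  | poisson
  | regular (d : ℕ)

/-- The function of a linear form averaged over the offspring. -/
noncomputable def Mdl.F : Mdl → ℝ → ℝ
  | .poisson, x => Real.exp x
  | .regular d, x => (1 + x / d) ^ d

/-- Numerator and denominator of the exponential series: from the term `j`, `n` more terms. -/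
def expSer (A B : ℤ) : ℕ → ℕ → ℤ × ℤ
  | _, 0 => (1, 1)
  | j, n + 1 =>
    match expSer A B (j + 1) n with
    | (num, den) => (Int.add (Int.mul (Int.mul (j : ℤ) B) den) (Int.mul A num),
        Int.mul (Int.mul (j : ℤ) B) den)

theorem expSer_spec (A B : ℤ) (hB : 0 < B) : ∀ n j : ℕ, 0 < j →
    (0 : ℝ) < (expSer A B j n).2 ∧
    ((expSer A B j n).1 : ℝ) / (expSer A B j n).2 =
      ∑ i ∈ Finset.range (n + 1), ((A : ℝ) / B) ^ i / (j.ascFactorial i : ℕ)
  | 0, j, _ => by simp [expSer]
  | n + 1, j, hj => by
    obtain ⟨hpos, ih⟩ := expSer_spec A B hB n (j + 1) (by omega)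
    have hB' : (0 : ℝ) < B := by exact_mod_cast hB
    have hj' : (0 : ℝ) < j := by exact_mod_cast hj
    rcases h : expSer A B (j + 1) n with ⟨num, den⟩
    rw [h] at hpos ih
    simp only [expSer, h, Int.add_def, Int.mul_def]
    push_cast
    refine ⟨by positivity, ?_⟩
    rw [Finset.sum_range_succ' _ (n + 1)]
    have e : ∀ i, ((A : ℝ) / B) ^ (i + 1) / (j.ascFactorial (i + 1) : ℕ) =
        (A : ℝ) / B / j * (((A : ℝ) / B) ^ i / ((j + 1).ascFactorial i : ℕ)) := by
      intro i
      have h1 : j.ascFactorial (i + 1) = j * (j + 1).ascFactorial i := by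
        have := Nat.succ_ascFactorial j i
        rw [Nat.ascFactorial_succ]
        linarith
      rw [h1, pow_succ]
      push_cast
      field_simp
    simp only [e]
    rw [← Finset.mul_sum, ← ih]
    simp only [pow_zero, Nat.ascFactorial_zero, Nat.cast_one, div_one]
    field_simp
    ring

/-- An interval containing `2 ^ Q * exp (A / D)`. -/
def expPair (A : ℤ) (D Q : ℕ) : Option Iv :=
  if A = 0 then some ((2 : ℤ) ^ Q, (2 : ℤ) ^ Q)
  else
    match expSer A (8 * (D : ℤ)) 1 19 with
    | (num, den) =>
      let num' := Int.mul num (20 * (8 * (D : ℤ)))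
      let den' := Int.mul den (20 * (8 * (D : ℤ)))
      let e : ℤ := 2 * ((A.natAbs ^ 20 : ℕ) : ℤ)
      if 0 < D ∧ e ≤ num' ∧ A.natAbs ≤ 80 * D then
        some (((num' - e) ^ 8 * 2 ^ Q) / den' ^ 8, ((num' + e) ^ 8 * 2 ^ Q) / den' ^ 8 + 1)
      else none

theorem expPair_sound {A : ℤ} {D Q : ℕ} {I : Iv} (h : expPair A D Q = some I) :
    0 ≤ I.1 ∧ I.Mem ((2 : ℝ) ^ Q * Real.exp ((A : ℝ) / D)) := by
  simp only [expPair] at h
  split_ifs at h with hA hc
  · obtain rfl := Option.some.inj h
    exact ⟨pow_nonneg (by norm_num) _, by simp [hA, Iv.Mem]⟩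
  · obtain rfl := Option.some.inj h
    obtain ⟨hD, he, hx⟩ := hc
    have hB : (0 : ℤ) < 8 * (D : ℤ) := by omega
    obtain ⟨hden, hser⟩ := expSer_spec A (8 * (D : ℤ)) hB 19 1 one_pos
    rcases hS : expSer A (8 * (D : ℤ)) 1 19 with ⟨num, den⟩
    rw [hS] at hden hser he
    simp only [Int.mul_def] at he ⊢
    push_cast at hser
    have hD' : (0 : ℝ) < D := by exact_mod_cast hD
    set x : ℝ := (A : ℝ) / (8 * D) with hxd
    have habs : |x| = (A.natAbs : ℝ) / (8 * D) := by
      rw [hxd, abs_div, abs_of_pos (show (0 : ℝ) < 8 * D by positivity), Nat.cast_natAbs,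
        Int.cast_abs]
    have hb : |Real.exp x - ∑ i ∈ Finset.range 20, x ^ i / (i.factorial : ℕ)| ≤
        |x| ^ 20 / (Nat.factorial 20 : ℕ) * 2 := by
      have := Complex.exp_bound' (x := (x : ℂ)) (n := 20) (by
        rw [Complex.norm_real, Real.norm_eq_abs, habs, div_div, div_le_iff₀ (by positivity)]
        have : (A.natAbs : ℝ) ≤ 80 * D := by exact_mod_cast hx
        push_cast
        nlinarith)
      rw [Complex.norm_real x, Real.norm_eq_abs] at this
      refine le_trans (le_of_eq ?_) this
      rw [← Real.norm_eq_abs, ← Complex.norm_real]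
      push_cast
      rfl
    simp only [Nat.one_ascFactorial] at hser
    rw [← hser] at hb
    set dp : ℝ := (den : ℝ) * (20 * (8 * D)) with hdp
    have hdp0 : 0 < dp := by rw [hdp]; positivity
    have hfac : dp = (Nat.factorial 20 : ℕ) * (8 * (D : ℝ)) ^ 20 := by
      have key : ∀ n j : ℕ, ((expSer A (8 * (D : ℤ)) j n).2 : ℝ) =
          (j.ascFactorial n : ℕ) * (8 * (D : ℝ)) ^ n := by
        intro n
        induction n with
        | zero => intro j; simp [expSer]
        | succ n ih =>
          intro j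
          have h1 : j.ascFactorial (n + 1) = j * (j + 1).ascFactorial n := by
            have := Nat.succ_ascFactorial j n
            rw [Nat.ascFactorial_succ]
            linarith
          simp only [expSer, Int.mul_def]
          push_cast
          rw [ih (j + 1), h1]
          push_cast
          ring
      have := key 19 1
      rw [hS, Nat.one_ascFactorial] at this
      rw [hdp, this, show Nat.factorial 20 = 20 * Nat.factorial 19 from rfl]
      push_cast
      ring
    have herr : |x| ^ 20 / (Nat.factorial 20 : ℕ) * 2 = 2 * (A.natAbs : ℝ) ^ 20 / dp := by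
      rw [habs, hfac, div_pow]
      field_simp
    rw [herr, abs_le] at hb
    have hq : (num : ℝ) / den = (num : ℝ) * (20 * (8 * D)) / dp := by
      rw [hdp]; field_simp
    rw [hq] at hb
    set np : ℝ := (num : ℝ) * (20 * (8 * D)) with hnp
    set e : ℝ := 2 * (A.natAbs : ℝ) ^ 20 with hed
    have he' : e ≤ np := by
      have := (Int.cast_le (R := ℝ)).2 he
      simp only [Int.cast_mul, Int.cast_natCast, Int.cast_ofNat, Nat.cast_pow] at this
      rw [hed, hnp, Nat.cast_natAbs, Int.cast_abs]
      push_cast at this ⊢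
      linarith
    have hlo : (np - e) / dp ≤ Real.exp x := by rw [sub_div]; linarith [hb.1]
    have hhi : Real.exp x ≤ (np + e) / dp := by rw [add_div]; linarith [hb.2]
    have hex : Real.exp ((A : ℝ) / D) = Real.exp x ^ 8 := by
      rw [← Real.exp_nat_mul, hxd]
      congr 1
      field_simp
      norm_num
    set num' : ℤ := num * (20 * (8 * (D : ℤ))) with hn'
    set den' : ℤ := den * (20 * (8 * (D : ℤ))) with hd'
    set e' : ℤ := 2 * ((A.natAbs ^ 20 : ℕ) : ℤ) with hee
    have cn : (num' : ℝ) = np := by rw [hn', hnp]; push_cast; ring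
    have cd : (den' : ℝ) = dp := by rw [hd', hdp]; push_cast; ring
    have ce : (e' : ℝ) = e := by
      rw [hee, hed, Nat.cast_natAbs, Int.cast_abs]
      push_cast
      ring
    have hd0 : 0 < den' := by exact_mod_cast cd ▸ hdp0
    have hdd : 0 < den' ^ 8 := pow_pos hd0 8
    refine ⟨Int.ediv_nonneg (mul_nonneg (pow_nonneg (sub_nonneg.2 he) 8)
      (pow_nonneg (by norm_num) _)) hdd.le, ?_, ?_⟩
    · have h1 := Int.ediv_mul_le ((num' - e') ^ 8 * 2 ^ Q) hdd.ne'
      have h1' := (Int.cast_le (R := ℝ)).2 h1
      push_cast at h1'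
      rw [cn, cd, ce] at h1'
      refine le_trans ((le_div_iff₀ (pow_pos hdp0 8)).2 h1') ?_
      rw [hex, mul_comm, mul_div_assoc, ← div_pow]
      exact mul_le_mul_of_nonneg_left
        (pow_le_pow_left₀ (div_nonneg (by linarith) hdp0.le) hlo 8) (by positivity)
    · have h1 := Int.lt_ediv_add_one_mul_self ((num' + e') ^ 8 * 2 ^ Q) hdd
      have h1' := (Int.cast_lt (R := ℝ)).2 h1
      push_cast at h1'
      rw [cn, cd, ce] at h1'
      push_cast
      refine le_trans ?_ ((div_lt_iff₀ (pow_pos hdp0 8)).2 h1').le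
      rw [hex, mul_comm _ ((2 : ℝ) ^ Q), mul_div_assoc, ← div_pow]
      exact mul_le_mul_of_nonneg_left
        (pow_le_pow_left₀ (Real.exp_pos x).le hhi 8) (by positivity)

/-- Truncated exponential with a remainder. -/
theorem exp_trunc {t T : ℝ} {K : ℕ} (ht : |t| ≤ T) (hT : 2 * T ≤ K + 1) :
    |Real.exp t - ∑ j ∈ Finset.range K, t ^ j / (j.factorial : ℕ)| ≤
      T ^ K / (K.factorial : ℕ) * 2 := by
  have := Complex.exp_bound' (x := (t : ℂ)) (n := K) (by
    rw [Complex.norm_real, Real.norm_eq_abs, div_le_iff₀ (by positivity)]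
    push_cast
    linarith)
  refine le_trans ?_ (mul_le_mul_of_nonneg_right
    (div_le_div_of_nonneg_right (pow_le_pow_left₀ (abs_nonneg t) ht K) (by positivity)) (by norm_num))
  rw [Complex.norm_real t, Real.norm_eq_abs] at this
  refine le_trans (le_of_eq ?_) this
  rw [← Real.norm_eq_abs, ← Complex.norm_real]
  push_cast
  rfl

/-- Truncated binomial with a remainder. -/
theorem binom_trunc {b t T : ℝ} {d K : ℕ} (ht : |t| ≤ T) :
    |(b + t) ^ d - ∑ j ∈ Finset.range K, (d.choose j : ℝ) * b ^ (d - j) * t ^ j| ≤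
      (d.choose K : ℝ) * T ^ K * (|b| + T) ^ (d - K) := by
  rcases lt_or_ge d K with hK | hK
  · rw [Nat.choose_eq_zero_of_lt hK, add_comm b t, add_pow,
      ← Finset.sum_subset (Finset.range_mono (show d + 1 ≤ K by omega)) (fun j _ hj => by
        rw [Finset.mem_range] at hj
        rw [Nat.choose_eq_zero_of_lt (by omega)]; ring)]
    simp only [mul_comm (d.choose _ : ℝ), mul_assoc, mul_left_comm (b ^ _)]
    simp [mul_comm]
  · have hT : 0 ≤ T := (abs_nonneg t).trans ht
    rw [add_comm b t, add_pow, show d + 1 = K + (d - K + 1) by omega, Finset.sum_range_add]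
    rw [Finset.sum_congr rfl (g := fun j => (d.choose j : ℝ) * b ^ (d - j) * t ^ j)
      (fun j _ => by ring), add_sub_cancel_left, add_comm |b| T, add_pow, Finset.mul_sum]
    refine (Finset.abs_sum_le_sum_abs _ _).trans (Finset.sum_le_sum fun i hi => ?_)
    rw [Finset.mem_range] at hi
    rw [abs_mul, abs_mul, abs_pow, abs_pow, Nat.abs_cast, pow_add]
    have hch : (d.choose (K + i) : ℝ) ≤ d.choose K * (d - K).choose i := by
      have h := Nat.choose_mul (n := d) (k := K + i) (s := K) (Nat.le_add_right K i)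
      rw [Nat.add_sub_cancel_left] at h
      have h1 : 1 ≤ (K + i).choose K := Nat.choose_pos (Nat.le_add_right K i)
      have : d.choose (K + i) ≤ d.choose K * (d - K).choose i := by
        rw [← h]; exact Nat.le_mul_of_pos_right _ h1
      exact_mod_cast this
    rw [show d - (K + i) = d - K - i by omega]
    calc |t| ^ K * |t| ^ i * |b| ^ (d - K - i) * (d.choose (K + i) : ℝ)
        ≤ T ^ K * T ^ i * |b| ^ (d - K - i) * ((d.choose K : ℝ) * (d - K).choose i) := by
          gcongr
      _ = _ := by ring

end Vale.Agent.P154.Q3.End
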