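import Vale.Agent.P154.End.Node
import Vale.Agent.P154.AvgLimit
import Vale.Agent.P154.NegTree

/-!
# The equations at the limit of the averaged moments

The four moments converge, being combinations of sublinear functionals, and every polynomial
majorant gives an inequality between the limits. If these exclude a positive magnetisation, the
advantage tends to zero.
-/

namespace Vale.Agent.P154.Q3

open scoped BigOperators Topology
open Filter

variable {f g : (Fin 3 → ℝ) → ℝ} {h : (Fin 3 → ℝ) → ℝ} {d lam μ : ℝ}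

/-- A combination of two sublinear functionals on the orthant. -/
def Spanned (f : (Fin 3 → ℝ) → ℝ) : Prop :=
  ∃ (a b : ℝ) (f₁ f₂ : (Fin 3 → ℝ) → ℝ), Sublin f₁ ∧ Sublin f₂ ∧
    ∀ v : Fin 3 → ℝ, (∀ i, 0 ≤ v i) → f v = a * f₁ v + b * f₂ v

theorem rf_congr (hh : ∀ r, InSlice r → h r = g r) {v : Fin 3 → ℝ} (hv : ∀ i, 0 ≤ v i) :
    rf h v = rf g v := by
  rcases (tot_nonneg hv).eq_or_lt with ht | ht
  · simp [rf, ← ht]
  · rw [rf, rf, hh _ (inSlice_rr hv ht)]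

theorem spanned_rf {a b : ℝ} {g₁ g₂ : ℝ → ℝ} (h₁ : ConvexOn ℝ (Set.Icc (-1) 2) g₁)
    (h₂ : ConvexOn ℝ (Set.Icc (-1) 2) g₂)
    (hh : ∀ r, InSlice r → h r = a * ∑ i, g₁ (r i) + b * ∑ i, g₂ (r i)) : Spanned (rf h) :=
  ⟨a, b, _, _, sublin_rf h₁, sublin_rf h₂, fun v hv => by
    rw [rf_congr hh hv]; simp only [rf]; ring⟩

theorem spanned_P2 : Spanned (rf P2) :=
  spanned_rf (a := 1) (b := 0) convex_sq convex_sq fun r _ => by
    simp [P2, Fin.sum_univ_three]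

theorem spanned_P3 : Spanned (rf P3) :=
  spanned_rf (a := 1) (b := -3) convex_cube convex_sq fun r _ => by
    simp only [P3, Fin.sum_univ_three]; ring

theorem spanned_P4 : Spanned (rf P4) :=
  spanned_rf (a := 2) (b := 0) convex_four convex_four fun r hr => by
    have hc : r 2 = -r 0 - r 1 := by linarith [hr.2]
    simp only [P4, P2, Fin.sum_univ_three]; rw [hc]; ring

theorem spanned_P5 : Spanned (rf P5) :=
  spanned_rf (a := 6 / 5) (b := -12) convex_five convex_sq fun r hr => by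
    have hc : r 2 = -r 0 - r 1 := by linarith [hr.2]
    simp only [P5, P2, P3, Fin.sum_univ_three]; rw [hc]; ring

theorem gwAvg_span {a b : ℝ} {f₁ f₂ : (Fin 3 → ℝ) → ℝ} (hd : 0 ≤ d) (h0 : -1 / 2 ≤ lam)
    (h1 : lam ≤ 1) (s₁ : Sublin f₁) (s₂ : Sublin f₂)
    (he : ∀ v : Fin 3 → ℝ, (∀ i, 0 ≤ v i) → f v = a * f₁ v + b * f₂ v) (n : ℕ) :
    gwAvg d lam n f = a * gwAvg d lam n f₁ + b * gwAvg d lam n f₂ := by
  refine HasSum.tsum_eq ((((summable_gwAvg hd h0 h1 s₁ n).hasSum.mul_left a).add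
    ((summable_gwAvg hd h0 h1 s₂ n).hasSum.mul_left b)).congr_fun fun t => ?_)
  simp only [fval, Finset.mul_sum, ← Finset.sum_add_distrib]
  exact Finset.sum_congr rfl fun η _ => by rw [he _ ((isStoch_lik h0 h1 n t).1 η)]; ring

theorem fval_span {a b : ℝ} {f₁ f₂ : (Fin 3 → ℝ) → ℝ} {Ω : Type} [Fintype Ω]
    {L : Ω → Fin 3 → ℝ} (hL : ∀ η i, 0 ≤ L η i)
    (he : ∀ v : Fin 3 → ℝ, (∀ i, 0 ≤ v i) → f v = a * f₁ v + b * f₂ v) :
    fval f L = a * fval f₁ L + b * fval f₂ L := by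
  simp only [fval, Finset.mul_sum, ← Finset.sum_add_distrib]
  exact Finset.sum_congr rfl fun η _ => he _ (hL η)

theorem Spanned.tendsto_gw (hf : Spanned f) (hd : 0 ≤ d) (h0 : -1 / 2 ≤ lam) (h1 : lam ≤ 1) :
    ∃ ℓ, Tendsto (fun n => gwAvg d lam n f) atTop (𝓝 ℓ) := by
  obtain ⟨a, b, f₁, f₂, s₁, s₂, he⟩ := hf
  exact ⟨_, (((tendsto_gwAvg hd h0 h1 s₁).const_mul a).add
    ((tendsto_gwAvg hd h0 h1 s₂).const_mul b)).congr fun n =>
      (gwAvg_span hd h0 h1 s₁ s₂ he n).symm⟩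

theorem Spanned.tendsto_reg (hf : Spanned f) (h0 : -1 / 2 ≤ lam) (h1 : lam ≤ 1) (k : ℕ) :
    ∃ ℓ, Tendsto (fun n => fval f (lik lam n (regTree k n))) atTop (𝓝 ℓ) := by
  obtain ⟨a, b, f₁, f₂, s₁, s₂, he⟩ := hf
  exact ⟨_, (((tendsto_regTree h0 h1 k s₁).const_mul a).add
    ((tendsto_regTree h0 h1 k s₂).const_mul b)).congr fun n =>
      (fval_span (isStoch_lik h0 h1 n _).1 he).symm⟩

/-- The bounds between the moments that hold for one channel. -/
structure MomBox (P R A B : ℝ) : Prop where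
  P0 : 0 ≤ P
  R0 : -(P / 2) ≤ R
  R1 : R ≤ P
  A0 : 0 ≤ A
  A1 : A ≤ 6 * P
  B0 : -(A / 2) ≤ B
  B1 : B ≤ A

theorem momBox_fval {Ω : Type} [Fintype Ω] {L : Ω → Fin 3 → ℝ} (hL : IsStoch L) :
    MomBox (fval (rf P2) L) (fval (rf P3) L) (fval (rf P4) L) (fval (rf P5) L) := by
  have key : ∀ (h₁ h₂ : (Fin 3 → ℝ) → ℝ) (c : ℝ), (∀ r, InSlice r → c * h₁ r ≤ h₂ r) →
      c * fval (rf h₁) L ≤ fval (rf h₂) L := fun h₁ h₂ c hh => by
    simp only [fval, Finset.mul_sum]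
    refine Finset.sum_le_sum fun η _ => ?_
    rcases (tot_nonneg (hL.1 η)).eq_or_lt with ht | ht
    · simp [rf, ← ht]
    · simp only [rf]
      have := mul_le_mul_of_nonneg_left (hh _ (inSlice_rr (hL.1 η) ht))
        (by linarith : 0 ≤ tot (L η) / 3)
      linarith
  have p0 := key P2 P2 0 fun r hr => by simpa using (slice_bounds hr).1
  have a0 := key P4 P4 0 fun r _ => by simpa [P4] using sq_nonneg (P2 r)
  have r0 := key P2 P3 (-(1 / 2)) fun r hr => by linarith [(slice_bounds hr).2.2.1]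
  have r1 := key P3 P2 1 fun r hr => by linarith [(slice_bounds hr).2.2.2]
  have a1 := key P4 P2 (1 / 6) fun r hr => by
    obtain ⟨a, b, -, -⟩ := slice_bounds hr
    have := mul_le_mul_of_nonneg_left b a
    unfold P4; linarith [sq (P2 r)]
  have b0 := key P4 P5 (-(1 / 2)) fun r hr => by
    obtain ⟨a, -, c, -⟩ := slice_bounds hr
    have := mul_le_mul_of_nonneg_left c a
    unfold P4 P5; linarith [sq (P2 r)]
  have b1 := key P5 P4 1 fun r hr => by
    obtain ⟨a, -, -, e⟩ := slice_bounds hr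
    have := mul_le_mul_of_nonneg_left e a
    unfold P4 P5; linarith [sq (P2 r)]
  constructor <;> linarith

/-- Node sum on Poisson trees, in the scaled moments. -/
noncomputable def gwNode (ms : List (Exp3 × ℚ)) (δ ρ α β : ℝ) : ℝ :=
  (ms.map fun p => (p.2 : ℝ) * Real.exp (S4 p.1 δ ρ α β)).sum

/-- Node sum on the `k`-regular tree, in the scaled moments. -/
noncomputable def regNode (k : ℕ) (ms : List (Exp3 × ℚ)) (δ ρ α β : ℝ) : ℝ :=
  (ms.map fun p => (p.2 : ℝ) * (1 + S4 p.1 δ ρ α β / k) ^ k).sum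

theorem S4_smul (a : Exp3) (c x y z w : ℝ) :
    S4 a (c * x) (c * y) (c * z) (c * w) = c * S4 a x y z w := by
  simp only [S4]; ring

theorem gwAvg_phiA (hd : 0 ≤ d) (h0 : -1 / 2 ≤ lam) (h1 : lam ≤ 1) {a : Exp3}
    (ha : a.1 + a.2.1 + a.2.2 ≤ 5) (n : ℕ) :
    gwAvg d lam n (phiA lam a) = 1 + S4 a (lam ^ 2 * gwAvg d lam n (rf P2))
      (lam ^ 3 * gwAvg d lam n (rf P3)) (lam ^ 4 * gwAvg d lam n (rf P4))
      (lam ^ 5 * gwAvg d lam n (rf P5)) := by
  have hw := gwWeight_nonneg hd n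
  have hs := hasSum_gw hd n
  have key : ∀ {f}, HomB f → HasSum (fun t => gwWeight d n t * fval f (lik lam n t))
      (gwAvg d lam n f) := fun hf => by
    obtain ⟨B, hB⟩ := hf.bound
    exact (summable_weighted hw hs.summable
      fun t => abs_fval_le_bound hB (isStoch_lik h0 h1 n t)).hasSum
  rw [S4_lin]
  refine HasSum.tsum_eq ((hs.add (((((key homB_P2).mul_left (lam ^ 2)).mul_left (S4 a 1 0 0 0)).add
    (((key homB_P3).mul_left (lam ^ 3)).mul_left (S4 a 0 1 0 0))).add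
    (((key homB_P4).mul_left (lam ^ 4)).mul_left (S4 a 0 0 1 0)) |>.add
    (((key homB_P5).mul_left (lam ^ 5)).mul_left (S4 a 0 0 0 1)))).congr_fun fun t => ?_)
  rw [fval_phiA (isStoch_lik h0 h1 n t) (colSym_lik lam n t) ha, S4_lin]
  ring

theorem tendsto_listSum {α ι : Type} {l : Filter ι} (ms : List α) {g : α → ι → ℝ} {s : α → ℝ}
    (hg : ∀ p ∈ ms, Tendsto (g p) l (𝓝 (s p))) :
    Tendsto (fun j => (ms.map fun p => g p j).sum) l (𝓝 (ms.map s).sum) := by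
  induction ms with
  | nil => simpa using tendsto_const_nhds
  | cons p ms ih =>
    simp only [List.map_cons, List.sum_cons]
    exact (hg p (List.mem_cons_self ..)).add (ih fun q hq => hg q (List.mem_cons_of_mem _ hq))

/-- The inequalities satisfied by the limits, for a node sum `N`. -/
structure LimPt (N : List (Exp3 × ℚ) → ℝ → ℝ → ℝ → ℝ → ℝ) (d lam P R A B : ℝ) : Prop where
  box : MomBox P R A B
  two : ∀ ms, Maj P2 ms →
    P ≤ N ms (d * lam ^ 2 * P) (d * lam ^ 3 * R) (d * lam ^ 4 * A) (d * lam ^ 5 * B)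
  four : ∀ ms, Maj P4 ms →
    A ≤ N ms (d * lam ^ 2 * P) (d * lam ^ 3 * R) (d * lam ^ 4 * A) (d * lam ^ 5 * B)
  three : ∀ (s : ℤ) (ms : List (Exp3 × ℚ)), Maj (fun r => (s : ℝ) * P3 r) ms →
    s * R ≤ N ms (d * lam ^ 2 * P) (d * lam ^ 3 * R) (d * lam ^ 4 * A) (d * lam ^ 5 * B)

theorem rf_const_mul (c : ℝ) (h : (Fin 3 → ℝ) → ℝ) (v : Fin 3 → ℝ) :
    rf (fun r => c * h r) v = c * rf h v := by simp only [rf]; ring

/-- The limit point of the Poisson model. -/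
theorem gw_limPt (hd : 0 ≤ d) (h0 : -1 / 2 ≤ lam) (h1 : lam ≤ 1) :
    ∃ P R A B, Tendsto (fun n => gwAvg d lam n (rf P2)) atTop (𝓝 P) ∧
      Tendsto (fun n => gwAvg d lam n (rf P4)) atTop (𝓝 A) ∧ LimPt gwNode d lam P R A B := by
  obtain ⟨P, hP⟩ := spanned_P2.tendsto_gw hd h0 h1
  obtain ⟨R, hR⟩ := spanned_P3.tendsto_gw hd h0 h1
  obtain ⟨A, hA⟩ := spanned_P4.tendsto_gw hd h0 h1
  obtain ⟨B, hB⟩ := spanned_P5.tendsto_gw hd h0 h1
  refine ⟨P, R, A, B, hP, hA, ?_⟩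
  have hw := gwWeight_nonneg hd
  have node : ∀ {h : (Fin 3 → ℝ) → ℝ} {ms ℓ}, Maj h ms → HomB (rf h) →
      Tendsto (fun n => gwAvg d lam n (rf h)) atTop (𝓝 ℓ) →
      ℓ ≤ gwNode ms (d * lam ^ 2 * P) (d * lam ^ 3 * R) (d * lam ^ 4 * A) (d * lam ^ 5 * B) := by
    intro h ms ℓ hm hh ht
    refine le_of_tendsto_of_tendsto' (ht.comp (tendsto_add_atTop_nat 1))
      (tendsto_listSum ms fun p hp => ?_) fun n => gwAvg_node_le hm hh hd h0 h1 n
    refine ((Real.continuous_exp.tendsto _).comp ?_).const_mul _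
    simp only [S4_lin p.1 (d * lam ^ 2 * P)]
    refine ((((((hP.const_mul (d * lam ^ 2)).const_mul (S4 p.1 1 0 0 0)).add
      ((hR.const_mul (d * lam ^ 3)).const_mul (S4 p.1 0 1 0 0))).add
      ((hA.const_mul (d * lam ^ 4)).const_mul (S4 p.1 0 0 1 0))).add
      ((hB.const_mul (d * lam ^ 5)).const_mul (S4 p.1 0 0 0 1)))).congr fun n => ?_
    rw [gwAvg_phiA hd h0 h1 (hm.2 p hp), S4_lin p.1 (lam ^ 2 * _)]
    ring
  have comb : ∀ {f₁ f₂ : (Fin 3 → ℝ) → ℝ} (c : ℝ), HomB f₁ → HomB f₂ →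
      (∀ n t, c * fval f₁ (lik lam n t) ≤ fval f₂ (lik lam n t)) →
      ∀ {ℓ₁ ℓ₂}, Tendsto (fun n => gwAvg d lam n f₁) atTop (𝓝 ℓ₁) →
        Tendsto (fun n => gwAvg d lam n f₂) atTop (𝓝 ℓ₂) → c * ℓ₁ ≤ ℓ₂ := by
    intro f₁ f₂ c b₁ b₂ hle ℓ₁ ℓ₂ t₁ t₂
    refine le_of_tendsto_of_tendsto' (t₁.const_mul c) t₂ fun n => ?_
    obtain ⟨B₁, hB₁⟩ := b₁.bound
    obtain ⟨B₂, hB₂⟩ := b₂.bound
    refine hasSum_le (fun t => ?_) ((summable_weighted (hw n) (hasSum_gw hd n).summable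
        fun t => abs_fval_le_bound hB₁ (isStoch_lik h0 h1 n t)).hasSum.mul_left c)
      (summable_weighted (hw n) (hasSum_gw hd n).summable
        fun t => abs_fval_le_bound hB₂ (isStoch_lik h0 h1 n t)).hasSum
    rw [mul_left_comm]
    exact mul_le_mul_of_nonneg_left (hle n t) (hw n t)
  have mb := fun n t => momBox_fval (isStoch_lik h0 h1 n t)
  refine ⟨⟨?_, ?_, ?_, ?_, ?_, ?_, ?_⟩, fun ms hm => node hm homB_P2 hP,
    fun ms hm => node hm homB_P4 hA, fun s ms hm => ?_⟩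
  · simpa using comb 0 homB_P2 homB_P2 (fun n t => by simpa using (mb n t).P0) hP hP
  · linarith [comb (-(1 / 2)) homB_P2 homB_P3 (fun n t => by linarith [(mb n t).R0]) hP hR]
  · linarith [comb 1 homB_P3 homB_P2 (fun n t => by linarith [(mb n t).R1]) hR hP]
  · simpa using comb 0 homB_P4 homB_P4 (fun n t => by simpa using (mb n t).A0) hA hA
  · linarith [comb (1 / 6) homB_P4 homB_P2 (fun n t => by linarith [(mb n t).A1]) hA hP]
  · linarith [comb (-(1 / 2)) homB_P4 homB_P5 (fun n t => by linarith [(mb n t).B0]) hA hB]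
  · linarith [comb 1 homB_P5 homB_P4 (fun n t => by linarith [(mb n t).B1]) hB hA]
  · refine node hm (homB_rf (B := |(s : ℝ)| * 36) fun r hr => ?_) ((hR.const_mul (s : ℝ)).congr ?_)
    · rw [abs_mul]
      obtain ⟨a, b, c, e⟩ := slice_bounds hr
      exact mul_le_mul_of_nonneg_left (abs_le.2 ⟨by linarith, by linarith⟩) (abs_nonneg _)
    · intro n
      simp only [gwAvg, fval, rf_const_mul, ← Finset.mul_sum, ← tsum_mul_left]
      exact tsum_congr fun t => by ring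

/-- The limit point of the regular model. -/
theorem reg_limPt {k : ℕ} (hk : 0 < k) (h0 : -1 / 2 ≤ lam) (h1 : lam ≤ 1) :
    ∃ P R A B, Tendsto (fun n => fval (rf P2) (lik lam n (regTree k n))) atTop (𝓝 P) ∧
      Tendsto (fun n => fval (rf P4) (lik lam n (regTree k n))) atTop (𝓝 A) ∧
      LimPt (regNode k) k lam P R A B := by
  obtain ⟨P, hP⟩ := spanned_P2.tendsto_reg h0 h1 k
  obtain ⟨R, hR⟩ := spanned_P3.tendsto_reg h0 h1 k
  obtain ⟨A, hA⟩ := spanned_P4.tendsto_reg h0 h1 k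
  obtain ⟨B, hB⟩ := spanned_P5.tendsto_reg h0 h1 k
  refine ⟨P, R, A, B, hP, hA, ?_⟩
  have hk' : (k : ℝ) ≠ 0 := by exact_mod_cast hk.ne'
  have node : ∀ {h : (Fin 3 → ℝ) → ℝ} {ms ℓ}, Maj h ms →
      Tendsto (fun n => fval (rf h) (lik lam n (regTree k n))) atTop (𝓝 ℓ) →
      ℓ ≤ regNode k ms (k * lam ^ 2 * P) (k * lam ^ 3 * R) (k * lam ^ 4 * A)
        (k * lam ^ 5 * B) := by
    intro h ms ℓ hm ht
    refine le_of_tendsto_of_tendsto' (ht.comp (tendsto_add_atTop_nat 1))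
      (tendsto_listSum ms fun p hp => ?_) fun n => regTree_node_le hm h0 h1 k n
    refine (Tendsto.pow ?_ k).const_mul _
    simp only [mul_assoc (k : ℝ), S4_smul, mul_div_cancel_left₀ _ hk']
    simp only [S4_lin p.1 (lam ^ 2 * P)]
    refine (tendsto_const_nhds.add (((((hP.const_mul (lam ^ 2)).const_mul (S4 p.1 1 0 0 0)).add
      ((hR.const_mul (lam ^ 3)).const_mul (S4 p.1 0 1 0 0))).add
      ((hA.const_mul (lam ^ 4)).const_mul (S4 p.1 0 0 1 0))).add
      ((hB.const_mul (lam ^ 5)).const_mul (S4 p.1 0 0 0 1)))).congr fun n => ?_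
    rw [fval_phiA (isStoch_lik h0 h1 n _) (colSym_lik lam n _) (hm.2 p hp),
      S4_lin p.1 (lam ^ 2 * _)]
  have mb := fun n => momBox_fval (isStoch_lik h0 h1 n (regTree k n))
  refine ⟨⟨?_, ?_, ?_, ?_, ?_, ?_, ?_⟩, fun ms hm => node hm hP, fun ms hm => node hm hA,
    fun s ms hm => node hm ((hR.const_mul (s : ℝ)).congr fun n => by
      simp only [fval, rf_const_mul, ← Finset.mul_sum])⟩
  · exact ge_of_tendsto' hP fun n => (mb n).P0
  · linarith [le_of_tendsto_of_tendsto' (hP.const_mul (-(1 / 2) : ℝ)) hR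
      fun n => by linarith [(mb n).R0]]
  · exact le_of_tendsto_of_tendsto' hR hP fun n => (mb n).R1
  · exact ge_of_tendsto' hA fun n => (mb n).A0
  · exact le_of_tendsto_of_tendsto' hA (hP.const_mul 6) fun n => (mb n).A1
  · linarith [le_of_tendsto_of_tendsto' (hA.const_mul (-(1 / 2) : ℝ)) hB
      fun n => by linarith [(mb n).B0]]
  · exact le_of_tendsto_of_tendsto' hB hA fun n => (mb n).B1

end Vale.Agent.P154.Q3
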