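import Vale.Agent.P154.End.Moments

/-!
# The node inequality from a polynomial majorant

A child moment `E Π (1 + λ r_i)^(a_i)` is `1 + S4 a` of the four scaled moments. A polynomial
majorant of a homogeneous functional turns the node into a sum of powers of such moments.
-/

namespace Vale.Agent.P154.Q3

open scoped BigOperators

variable {Ω : Type} [Fintype Ω] {L : Ω → Fin 3 → ℝ} {h : (Fin 3 → ℝ) → ℝ} {d lam : ℝ}

/-- Invariance under relabelling the colours. -/
def ColSym (L : Ω → Fin 3 → ℝ) : Prop :=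
  ∀ σ : Equiv.Perm (Fin 3), ∃ e : Ω ≃ Ω, ∀ η i, L (e η) i = L η (σ i)

omit [Fintype Ω] in
theorem colSym_edge (hL : ColSym L) (s : ℝ) : ColSym (edge s L) := fun σ => by
  obtain ⟨e, he⟩ := hL σ
  refine ⟨e, fun η i => ?_⟩
  have : tot (L (e η)) = tot (L η) := by
    have h := Equiv.sum_comp σ fun j => L η j
    simp only [Fin.sum_univ_three] at h
    simp only [tot, he]; linarith
  simp only [Q3.edge, push, he, this]

theorem colSym_lik (lam : ℝ) : ∀ (n : ℕ) (t : RTree n), ColSym (lik lam n t) := by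
  intro n
  induction n with
  | zero =>
    intro t σ
    refine ⟨Equiv.piCongrRight fun _ => σ.symm, fun η i => ?_⟩
    simp only [lik]
    exact if_congr (Equiv.symm_apply_eq σ) rfl rfl
  | succ n ih =>
    intro t σ
    have hc : ∀ c, ∃ e : (Leaf n (t.2 c) → Fin 3) ≃ (Leaf n (t.2 c) → Fin 3),
        ∀ η i, childChan lam t c (e η) i = childChan lam t c η (σ i) :=
      fun c => colSym_edge (ih (t.2 c)) lam σ
    choose e he using hc
    let C : (Leaf (n + 1) t → Fin 3) ≃ (∀ c : Fin t.1, Leaf n (t.2 c) → Fin 3) :=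
      Equiv.piCurry fun (c : Fin t.1) (_ : Leaf n (t.2 c)) => Fin 3
    refine ⟨(C.trans (Equiv.piCongrRight e)).trans C.symm, fun η i => ?_⟩
    rw [lik_succ, lik_succ]
    show prodL (childChan lam t) (C (((C.trans (Equiv.piCongrRight e)).trans C.symm) η)) i =
      prodL (childChan lam t) (C η) (σ i)
    simp only [Equiv.trans_apply, Equiv.apply_symm_apply]
    simp only [prodL]
    exact Finset.prod_congr rfl fun c _ => he c _ i

theorem fval_six (f : (Fin 3 → ℝ) → ℝ) (hs : ColSym L) (k : Fin 6) :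
    fval f L = ∑ η, f (fun i => L η (six k i)) := by
  obtain ⟨e, he⟩ := hs (Equiv.ofBijective _ (six_bij k))
  rw [fval, ← e.sum_comp]
  exact Finset.sum_congr rfl fun η _ => congrArg f (funext fun i => he η i)

theorem S4_lin (a : Exp3) (x y z w : ℝ) : S4 a x y z w =
    S4 a 1 0 0 0 * x + S4 a 0 1 0 0 * y + S4 a 0 0 1 0 * z + S4 a 0 0 0 1 * w := by
  simp only [S4]; ring

/-- A child moment is linear in the four moments. -/
theorem fval_phiA (hL : IsStoch L) (hs : ColSym L) {a : Exp3} (ha : a.1 + a.2.1 + a.2.2 ≤ 5) :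
    fval (phiA lam a) L = 1 + S4 a (lam ^ 2 * fval (rf P2) L) (lam ^ 3 * fval (rf P3) L)
      (lam ^ 4 * fval (rf P4) L) (lam ^ 5 * fval (rf P5) L) := by
  have e : ∀ η, ∑ k, phiA lam a (fun i => L η (six k i)) = 6 * (tot (L η) / 3 +
      (S4 a 1 0 0 0 * (lam ^ 2 * rf P2 (L η)) + S4 a 0 1 0 0 * (lam ^ 3 * rf P3 (L η)) +
        S4 a 0 0 1 0 * (lam ^ 4 * rf P4 (L η)) + S4 a 0 0 0 1 * (lam ^ 5 * rf P5 (L η)))) := by
    intro η
    rcases (tot_nonneg (hL.1 η)).eq_or_lt with ht | ht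
    · simp [phiA, rf, eq_zero_of_tot (hL.1 η) ht.symm, tot]
    · have htk : ∀ k, tot (fun i => L η (six k i)) = tot (L η) := by
        intro k; fin_cases k <;> simp [six, tot] <;> ring
      have key := six_avg a ha lam (rr (L η)) (inSlice_rr (hL.1 η) ht).2
      rw [S4_lin] at key
      simp only [phiA, rf, htk, ← Finset.mul_sum]
      have : ∀ k, monL a (fun i => 1 + lam * rr (fun j => L η (six k j)) i) =
          monL a (fun i => 1 + lam * rr (L η) (six k i)) := fun k => by simp only [rr, htk]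
      simp only [this, key]
      ring
  have h6 : 6 * fval (phiA lam a) L = ∑ η, ∑ k, phiA lam a (fun i => L η (six k i)) := by
    rw [Finset.sum_comm, Finset.sum_congr rfl fun k _ => (fval_six (phiA lam a) hs k).symm]
    simp
  rw [Finset.sum_congr rfl fun η _ => e η, ← Finset.mul_sum] at h6
  have h1 := mul_left_cancel₀ (by norm_num : (6 : ℝ) ≠ 0) h6
  rw [h1, S4_lin a (lam ^ 2 * _), Finset.sum_add_distrib, sum_tot_third hL]
  simp only [Finset.sum_add_distrib, ← Finset.mul_sum, fval]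

theorem one_add_mem (h0 : -1 / 2 ≤ lam) (h1 : lam ≤ 1) {x : ℝ} (hx : -1 ≤ x ∧ x ≤ 2) :
    0 ≤ 1 + lam * x ∧ 1 + lam * x ≤ 3 := by
  rcases le_total 0 x with h | h
  · have := mul_le_mul_of_nonneg_right h0 h
    have := mul_le_mul_of_nonneg_right h1 h
    constructor <;> linarith [hx.2]
  · have := mul_le_mul_of_nonpos_right h0 h
    have := mul_le_mul_of_nonpos_right h1 h
    constructor <;> linarith [hx.1]

theorem phiA_nonneg (h0 : -1 / 2 ≤ lam) (h1 : lam ≤ 1) (a : Exp3) {v : Fin 3 → ℝ}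
    (hv : ∀ i, 0 ≤ v i) : 0 ≤ phiA lam a v := by
  rcases (tot_nonneg hv).eq_or_lt with ht | ht
  · simp [phiA, rf, ← ht]
  · have h := fun i => (one_add_mem h0 h1 ((inSlice_rr hv ht).1 i)).1
    exact mul_nonneg (by linarith)
      (mul_nonneg (mul_nonneg (pow_nonneg (h 0) _) (pow_nonneg (h 1) _)) (pow_nonneg (h 2) _))

theorem fval_phiA_nonneg (h0 : -1 / 2 ≤ lam) (h1 : lam ≤ 1) (a : Exp3) (hL : IsStoch L) :
    0 ≤ fval (phiA lam a) L := Finset.sum_nonneg fun η _ => phiA_nonneg h0 h1 a (hL.1 η)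

/-- `ms` bounds the functional `rf h` on the orthant and has degree at most five. -/
def Maj (h : (Fin 3 → ℝ) → ℝ) (ms : List (Exp3 × ℚ)) : Prop :=
  (∀ l : Fin 3 → ℝ, (∀ i, 0 ≤ l i) → rf h l ≤ evalP ms l) ∧
    ∀ p ∈ ms, p.1.1 + p.1.2.1 + p.1.2.2 ≤ 5

theorem monL_prod {k : ℕ} (a : Exp3) (l : Fin k → Fin 3 → ℝ) :
    monL a (fun i => ∏ c, l c i) = ∏ c, monL a (l c) := by
  simp only [monL, Finset.prod_mul_distrib, Finset.prod_pow]

theorem rf_prod_le {ms : List (Exp3 × ℚ)} (hm : Maj h ms) (h0 : -1 / 2 ≤ lam) (h1 : lam ≤ 1)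
    {k : ℕ} {l : Fin k → Fin 3 → ℝ} (hl : ∀ c i, 0 ≤ l c i) :
    rf h (fun i => ∏ c, push lam (l c) i) ≤
      (ms.map fun p => (p.2 : ℝ) * ∏ c, phiA lam p.1 (l c)).sum := by
  set W := ∏ c, tot (l c) / 3 with hW
  set l' : Fin 3 → ℝ := fun i => ∏ c, (1 + lam * rr (l c) i) with hl'
  have e : (fun i => ∏ c, push lam (l c) i) = W • l' := by
    funext i
    simp only [hW, hl', Pi.smul_apply, smul_eq_mul, ← Finset.prod_mul_distrib]
    refine Finset.prod_congr rfl fun c _ => ?_
    rcases (tot_nonneg (hl c)).eq_or_lt with ht | ht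
    · simp [push, eq_zero_of_tot (hl c) ht.symm, tot]
    · simp only [push, rr]; field_simp; ring
  have hW0 : 0 ≤ W := Finset.prod_nonneg fun c _ => by
    have := tot_nonneg (hl c); linarith
  have hl0 : ∀ i, 0 ≤ l' i := fun i => Finset.prod_nonneg fun c _ => by
    rcases (tot_nonneg (hl c)).eq_or_lt with ht | ht
    · simp only [rr, ← ht, div_zero]; linarith
    · exact (one_add_mem h0 h1 ((inSlice_rr (hl c) ht).1 i)).1
  rw [e, rf_smul]
  refine (mul_le_mul_of_nonneg_left (hm.1 l' hl0) hW0).trans (le_of_eq ?_)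
  rw [evalP, ← List.sum_map_mul_left]
  refine congrArg List.sum (List.map_congr_left fun p _ => ?_)
  rw [hl', monL_prod, hW, mul_left_comm, ← Finset.prod_mul_distrib]
  rfl

theorem sum_listSum {ι α : Type} (s : Finset ι) (ms : List α) (g : α → ι → ℝ) :
    ∑ j ∈ s, (ms.map fun p => g p j).sum = (ms.map fun p => ∑ j ∈ s, g p j).sum := by
  induction ms with
  | nil => simp
  | cons p ms ih => simp [Finset.sum_add_distrib, ih]

theorem hasSum_listSum {ι α : Type} (ms : List α) {g : α → ι → ℝ} {s : α → ℝ}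
    (hg : ∀ p ∈ ms, HasSum (g p) (s p)) :
    HasSum (fun j => (ms.map fun p => g p j).sum) (ms.map s).sum := by
  induction ms with
  | nil => simp
  | cons p ms ih =>
    simp only [List.map_cons, List.sum_cons]
    exact (hg p (List.mem_cons_self ..)).add (ih fun q hq => hg q (List.mem_cons_of_mem _ hq))

theorem fval_rf_tree_le {ms : List (Exp3 × ℚ)} (hm : Maj h ms) (h0 : -1 / 2 ≤ lam) (h1 : lam ≤ 1)
    {n : ℕ} (t : RTree (n + 1)) :
    fval (rf h) (lik lam (n + 1) t) ≤
      (ms.map fun p => (p.2 : ℝ) * ∏ c, fval (phiA lam p.1) (lik lam n (t.2 c))).sum := by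
  rw [fval_lik_node]
  refine (Finset.sum_le_sum fun η _ => rf_prod_le (lam := lam) hm h0 h1
    (l := fun c => lik lam n (t.2 c) (η c)) fun c => (isStoch_lik h0 h1 n _).1 _).trans (le_of_eq ?_)
  rw [sum_listSum]
  refine congrArg List.sum (List.map_congr_left fun p _ => ?_)
  rw [← Finset.mul_sum]
  simp only [fval, Fintype.prod_sum]

theorem hasSum_poisson_pow (d x : ℝ) :
    HasSum (fun k => poissonWeight d k * x ^ k) (Real.exp (d * (x - 1))) := by
  have h := (hasSum_poisson (d * x)).mul_left (Real.exp (d * (x - 1)))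
  rw [mul_one] at h
  refine h.congr_fun fun k => ?_
  have e : Real.exp (d * (x - 1)) * Real.exp (-(d * x)) = Real.exp (-d) := by
    rw [← Real.exp_add]; ring_nf
  simp only [poissonWeight, mul_pow]
  rw [← e]; ring

theorem hasSum_gwPhi (hd : 0 ≤ d) (h0 : -1 / 2 ≤ lam) (h1 : lam ≤ 1) (a : Exp3) (n : ℕ) :
    HasSum (fun t : RTree (n + 1) =>
        gwWeight d (n + 1) t * ∏ c, fval (phiA lam a) (lik lam n (t.2 c)))
      (Real.exp (d * (gwAvg d lam n (phiA lam a) - 1))) := by
  have hw := gwWeight_nonneg hd n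
  have hp := fun t => fval_phiA_nonneg h0 h1 a (isStoch_lik h0 h1 n t)
  have hB : HomB (phiA lam a) := homB_rf (B := 3 ^ (a.1 + a.2.1 + a.2.2)) fun r hr => by
    have := fun i => one_add_mem h0 h1 (hr.1 i)
    rw [monL, pow_add, pow_add, abs_mul, abs_mul, abs_of_nonneg (pow_nonneg (this 0).1 _),
      abs_of_nonneg (pow_nonneg (this 1).1 _), abs_of_nonneg (pow_nonneg (this 2).1 _)]
    exact mul_le_mul (mul_le_mul (pow_le_pow_left₀ (this 0).1 (this 0).2 _)
      (pow_le_pow_left₀ (this 1).1 (this 1).2 _) (pow_nonneg (this 1).1 _) (by positivity))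
      (pow_le_pow_left₀ (this 2).1 (this 2).2 _) (pow_nonneg (this 2).1 _) (by positivity)
  obtain ⟨B, hB⟩ := hB.bound
  have hμ : HasSum (fun t => gwWeight d n t * fval (phiA lam a) (lik lam n t))
      (gwAvg d lam n (phiA lam a)) :=
    (summable_weighted hw (hasSum_gw hd n).summable
      fun t => abs_fval_le_bound hB (isStoch_lik h0 h1 n t)).hasSum
  refine hasSum_node (fun t => mul_nonneg (gwWeight_nonneg hd _ t)
    (Finset.prod_nonneg fun c _ => hp _)) (fun k => ?_) (hasSum_poisson_pow d _)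
  have h2 := (hasSum_pi (fun _ : Fin k => fun t => gwWeight d n t * fval (phiA lam a) (lik lam n t))
    (fun _ => gwAvg d lam n (phiA lam a)) (fun _ t => mul_nonneg (hw t) (hp t))
    fun _ => hμ).mul_left (poissonWeight d k)
  simp only [Finset.prod_const, Finset.card_univ, Fintype.card_fin] at h2
  refine h2.congr_fun fun g => ?_
  rw [show gwWeight d (n + 1) ⟨k, g⟩ = poissonWeight d k * ∏ c, gwWeight d n (g c) from rfl,
    Finset.prod_mul_distrib, mul_assoc]

/-- The node inequality on Poisson trees. -/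
theorem gwAvg_node_le {ms : List (Exp3 × ℚ)} (hm : Maj h ms) (hh : HomB (rf h)) (hd : 0 ≤ d)
    (h0 : -1 / 2 ≤ lam) (h1 : lam ≤ 1) (n : ℕ) :
    gwAvg d lam (n + 1) (rf h) ≤
      (ms.map fun p => (p.2 : ℝ) * Real.exp (d * (gwAvg d lam n (phiA lam p.1) - 1))).sum := by
  obtain ⟨B, hB⟩ := hh.bound
  have hw := gwWeight_nonneg hd (n + 1)
  refine hasSum_le (fun t => ?_) (summable_weighted hw (hasSum_gw hd (n + 1)).summable
      fun t => abs_fval_le_bound hB (isStoch_lik h0 h1 (n + 1) t)).hasSum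
    (hasSum_listSum ms (g := fun p t => (p.2 : ℝ) * (gwWeight d (n + 1) t *
      ∏ c, fval (phiA lam p.1) (lik lam n (t.2 c))))
      fun p _ => (hasSum_gwPhi hd h0 h1 p.1 n).mul_left _)
  refine (mul_le_mul_of_nonneg_left (fval_rf_tree_le hm h0 h1 t) (hw t)).trans (le_of_eq ?_)
  rw [← List.sum_map_mul_left]
  exact congrArg List.sum (List.map_congr_left fun p _ => by ring)

/-- The node inequality on regular trees. -/
theorem regTree_node_le {ms : List (Exp3 × ℚ)} (hm : Maj h ms) (h0 : -1 / 2 ≤ lam) (h1 : lam ≤ 1)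
    (b n : ℕ) :
    fval (rf h) (lik lam (n + 1) (regTree b (n + 1))) ≤
      (ms.map fun p => (p.2 : ℝ) * fval (phiA lam p.1) (lik lam n (regTree b n)) ^ b).sum := by
  refine (fval_rf_tree_le hm h0 h1 (regTree b (n + 1))).trans (le_of_eq ?_)
  refine congrArg List.sum (List.map_congr_left fun p _ => ?_)
  show _ * ∏ _c : Fin b, fval (phiA lam p.1) (lik lam n (regTree b n)) = _
  rw [Finset.prod_const, Finset.card_univ, Fintype.card_fin]

end Vale.Agent.P154.Q3
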