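import Vale.Agent.P154.End.Chain

/-!
# No reconstruction on a regular tree from a chain certificate and a certified recursion
-/

namespace Vale.Agent.P154.Q3.End

open Filter Topology

/-- A checked chain and bounds on the two moments at some depth, uniform on `[-μ, 0]`, exclude
reconstruction up to the threshold whenever `k μ ^ 2 ≥ 1`. -/
theorem reg_nonrec {S : Setup} {Ls : List Leg} (h : S.check Ls = true) {k : ℕ}
    (hm : S.mdl = .regular k) {N₀ : ℕ} (hk : 0 < k) (hμ2 : S.mu ≤ 1 / 2)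
    (hμ : 1 ≤ (k : ℝ) * S.mu ^ 2)
    (hb : ∀ l : ℝ, -S.mu ≤ l → l ≤ 0 →
      fval (rf fun r => ∑ i, r i ^ 2) (lik l N₀ (regTree k N₀)) ≤ (S.P0 : ℝ) / 1000 ∧
        2 * fval (rf fun r => ∑ i, r i ^ 4) (lik l N₀ (regTree k N₀)) ≤ (S.A0 : ℝ) / 1000)
    {lam : ℝ} (hn : lam < 0) (_h1 : -1 / 2 ≤ lam) (hKS : (k : ℝ) * lam ^ 2 ≤ 1) :
    Tendsto (aRegular 3 k lam) atTop (𝓝 0) := by
  have hμ0 : 0 ≤ S.mu := by unfold Setup.mu; positivity
  have hk' : (0 : ℝ) < k := by exact_mod_cast hk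
  have hl : -S.mu ≤ lam := by
    have h2 : lam ^ 2 ≤ S.mu ^ 2 := le_of_mul_le_mul_left (hKS.trans hμ) hk'
    have h3 := abs_le_of_sq_le_sq' h2 hμ0
    exact h3.1
  obtain ⟨hP, hA⟩ := hb lam hl hn.le
  refine reg_endgame hk hl hμ2 hn hKS hP hA fun δ ρ α β hs hδ hα => ?_
  refine S.check_sound h (δ := δ) (ρ := ρ) (α := α) (β := β) ?_ hδ hα
  have e : mdlNode S.mdl = regNode k := by
    funext ms x y z w
    rw [hm]
    exact (regNode_eq k ms x y z w).symm
  rw [e]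
  exact hs

end Vale.Agent.P154.Q3.End
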