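import Vale.Agent.P154.End.SmallData

/-!
# Small magnetisation at the limit vanishes on Poisson trees

For `λ ∈ [-1/2, 0)` and `d λ² ≤ 1` a limit `P ≤ 6/100` of the averaged sum of squares of the
normalised coordinates forces `P = 0`, hence no reconstruction.
-/

namespace Vale.Agent.P154.Q3

open scoped BigOperators Topology
open Filter

variable {d lam : ℝ}

/-- The scaled inequalities exclude `0 < δ ≤ 6 / 100`. -/
theorem scaled_small {δ ρ α β : ℝ} (h : ScaledPt gwNode (1 / 2) δ ρ α β) (hδ : δ ≤ 6 / 100) :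
    δ ≤ 0 := by
  have hμ : End.SmallGW.setup.mu = 1 / 2 := by
    simp [End.Setup.mu, End.SmallGW.setup]
  have h' : ScaledPt (End.mdlNode End.SmallGW.setup.mdl) End.SmallGW.setup.mu δ ρ α β := by
    rw [hμ]
    exact h
  refine End.Setup.check_sound End.SmallGW.check_ok h' ?_ ?_
  · simp only [End.SmallGW.setup]
    norm_num
    linarith
  · rw [hμ]
    have := h.α1
    simp only [End.SmallGW.setup]
    norm_num at this ⊢
    linarith

/-- If every limit of the averaged sum of squares is at most `6 / 100` then it is zero, and there is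
no reconstruction on Poisson trees. -/
theorem gw_small (hd : 0 < d) (h0 : -1 / 2 ≤ lam) (hn : lam < 0) (hKS : d * lam ^ 2 ≤ 1)
    (hP : ∀ P, Tendsto (fun n => gwAvg d lam n (rf P2)) atTop (𝓝 P) → P ≤ 6 / 100) :
    Tendsto (aPoisson 3 d lam) atTop (𝓝 0) := by
  have h1 : lam ≤ 1 := by linarith
  obtain ⟨P, R, A, B, htP, -, hL⟩ := gw_limPt hd.le h0 h1
  have s2 := hL.scaled (μ := 1 / 2) hd.le (by linarith) hn.le hKS
  have hz := scaled_small s2 ((mul_le_of_le_one_left hL.box.P0 hKS).trans (hP P htP))
  have hP0 : P = 0 :=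
    le_antisymm (nonpos_of_mul_nonpos_right hz (mul_pos hd (sq_pos_of_neg hn))) hL.box.P0
  refine tendsto_aPoisson (adm_three' h0 h1) hd.le ?_
  have e : ∀ n, magPoisson 3 d lam n = gwAvg d lam n (rf P2) / 9 := fun n => by
    rw [gwAvg, ← tsum_div_const]
    refine tsum_congr fun t => ?_
    rw [fval_P2_eq t h0 h1, mag_eq, gwWeight_eq]
    ring
  simp only [funext e]
  simpa [hP0] using htP.div_const 9

end Vale.Agent.P154.Q3
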