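import Vale.Agent.P154.End.Chain

/-!
# Certificate for small magnetisations on Poisson trees

A chain of cones for the Poisson model with `|λ| ≤ 1 / 2` and `d λ ^ 2 P ≤ 3 / 50`, where `P` is the
mean sum of squares of the normalised coordinates.
-/

namespace Vale.Agent.P154.Q3.End.SmallGW

/-- Majorant 1. -/
def maj1 : MajA where
  den := 729000
  P := [729000, -2187000]
  Q := [0, 0, 25982289, 10629549]
  G := [0, 0, 1581201, -9721215, 14955435]
  m := 8
  first := ⟨256, [256, 320, 336, 344, 352, 384, 512]⟩
  pieces := [(48, ⟨256, [256]⟩, ⟨256, [256, 512]⟩)]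

/-- Majorant 2. -/
def maj2 : MajC where
  den := 729000
  sden := 729000
  P := [729000, -1458000, 1743768]
  Q := [0, 0, 363042, 62694]
  G := [0, 0, 1156923, -7109937, 10938645]
  c0 := ⟨256, [256, 320, 336, 344, 352, 384, 512]⟩
  cu := ⟨256, [128, 192, 208, 224, 256]⟩
  cl := ⟨256, [256, 384, 448, 480, 512]⟩

/-- Majorant 3. -/
def maj3 : MajC where
  den := 729000
  sden := -729000
  P := [-729000, 1458000, -1179522]
  Q := [0, 0, 348462, 54675]
  G := [0, 0, 941139, -5758371, 8858808]
  c0 := ⟨256, [256, 320, 336, 352, 384, 512]⟩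
  cu := ⟨256, [256, 640, 736, 784, 832, 1024]⟩
  cl := ⟨256, [256, 260, 264, 272, 288, 320, 384, 512]⟩

/-- Majorant 4. -/
def maj4 : MajX where
  den := 729000
  P := [729000, -729000, 729000, -694008]
  G := [0, 0, 4374, -208494, 4167693]
  c0 := ⟨256, [256, 264, 272, 288, 320, 384, 512]⟩
  c6 := ⟨256, [256]⟩

/-- A step. -/
def step1_0 : Step :=
  ⟨maj1, [26257851, -92137338, 13186314, -10449, 80318304, -3789990, -2101194, 2430, -38782368, 6793326, 3323448, -189, 6939846, 9], maj2, [19205505, -45532854, -838512, -21865383, 50884200, -8006202, 4410990, 12052800, -13894200, 2954592, 1806012, -2943999, 1498194, 268857], maj3, [15558318, -36982656, -4160160, -17609967, 54312444, -11698830, 2994624, 5330286, -12971772, 2008566, 2807064, -636471, 1022508, 26046], false, 2974, 653, 117⟩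

/-- Interval 1. -/
def leg1 : Leg where
  D1 := 60
  cen := false
  steps := [
    step1_0]
  MX := maj4
  cX := [4380561, -17298684, -833004, -6318, 17090676, -3750948, 1852038, 2430, -3751920, 1080468, 926244, -486, 308898, 45]

/-- The parameters. -/
def setup : Setup := ⟨.poisson, 4, 4, 1, 2, 60, 36000⟩

/-- Both factors of a true conjunction. -/
theorem and_true_iff {a b : Bool} : (a && b) = true ↔ a = true ∧ b = true := Bool.and_eq_true_iff

/-- The intervals. -/
def legs : List Leg := [leg1]

theorem step1_0_ok : step1_0.check setup false 0 60 setup.apriori = true := by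
  decide +kernel

theorem last1_ok : lastOK setup 0 60 (⟨2, 653, 117, 2974⟩ : Cone) leg1 = true := by
  decide +kernel

theorem leg1_ok : stepsOK setup 0 leg1 setup.apriori leg1.steps = true :=
  and_true_iff.2 ⟨step1_0_ok, last1_ok⟩

theorem check_ok : setup.check legs = true :=
  and_true_iff.2 ⟨(by decide : decide (0 < setup.md) = true), and_true_iff.2 ⟨leg1_ok, (by decide : decide (60 ≤ 60) = true)⟩⟩

end Vale.Agent.P154.Q3.End.SmallGW
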