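import Vale.Agent.P154.End.Classes

/-!
# Two shapes of boxes

An ordinary box is given by its centre and four offset intervals. A box at the origin is scaled by
the first variable `δ ≤ T / Z`, the other variables being measured against `δ ^ 2`.
-/

namespace Vale.Agent.P154.Q3.End

open scoped BigOperators

/-- An ordinary box: `Z * z_i - z0_i` lies in the `i`-th interval. -/
def Box.plain (m : Mdl) (K Q Z : ℕ) (z0 : List ℤ) (I1 I2 I3 I4 : Iv) : Box where
  mdl := m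
  K := K
  Q := Q
  Z := Z
  z0 := z0
  D := (1, 1)
  cs := [(0, I1), (0, I2), (0, I3), (0, I4)]
  s := 0

/-- A box at the origin: `Z * x ≤ T` and `T ^ 2 * y / (Z * x ^ 2)` lies in the interval of `y`. -/
def Box.origin (m : Mdl) (K Q Z T : ℕ) (I2 I3 I4 : Iv) : Box where
  mdl := m
  K := K
  Q := Q
  Z := Z
  z0 := [0, 0, 0, 0]
  D := (0, 1)
  cs := [(1, ((T : ℤ), (T : ℤ))), (2, I2), (2, I3), (2, I4)]
  s := 2

variable {m : Mdl} {K Q Z T : ℕ} {ms : List (Exp3 × ℚ)} {den : ℕ} {c : List ℤ} {q0 : ℤ}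
  {q : List ℤ} {I1 I2 I3 I4 : Iv} {a1 a2 a3 a4 : ℤ} {x y z w : ℝ}

theorem Box.plain_le (hm : classOK ms den c = true)
    (hb : (Box.plain m K Q Z [a1, a2, a3, a4] I1 I2 I3 I4).check c q0 q = true)
    (h1 : I1.Mem (Z * x - a1)) (h2 : I2.Mem (Z * y - a2)) (h3 : I3.Mem (Z * z - a3))
    (h4 : I4.Mem (Z * w - a4)) :
    (den : ℝ) * (ms.map fun p => (p.2 : ℝ) * m.F (S4 p.1 x y z w)).sum +
      q0 + dotL q [x, y, z, w] ≤ 0 := by
  have hwf := hb
  simp only [Box.check, Bool.and_eq_true, Box.wf, decide_eq_true_eq] at hwf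
  have hZ : (Z : ℝ) ≠ 0 := by
    have : 0 < Z := hwf.1.1.1.2.2.1
    exact_mod_cast this.ne'
  refine Box.node_le hm hb (t := 1) (rs := [Z * x - a1, Z * y - a2, Z * z - a3, Z * w - a4])
    (by simp [Box.plain, Iv.Mem]) ⟨h1, h2, h3, h4, rfl⟩ ?_
  simp [Box.point, Box.plain, coordsAt, hZ]

theorem Box.origin_le (hm : classOK ms den c = true)
    (hb : (Box.origin m K Q Z T I2 I3 I4).check c q0 q = true)
    (hT : 0 < T) (hx : 0 < x) (hxT : (Z : ℝ) * x ≤ T)
    (h2 : I2.Mem ((T : ℝ) ^ 2 * y / (Z * x ^ 2))) (h3 : I3.Mem ((T : ℝ) ^ 2 * z / (Z * x ^ 2)))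
    (h4 : I4.Mem ((T : ℝ) ^ 2 * w / (Z * x ^ 2))) :
    (den : ℝ) * (ms.map fun p => (p.2 : ℝ) * m.F (S4 p.1 x y z w)).sum +
      q0 + dotL q [x, y, z, w] ≤ 0 := by
  have hwf := hb
  simp only [Box.check, Bool.and_eq_true, Box.wf, decide_eq_true_eq] at hwf
  have hZ : (Z : ℝ) ≠ 0 := by
    have : 0 < Z := hwf.1.1.1.2.2.1
    exact_mod_cast this.ne'
  have hT' : (0 : ℝ) < T := by exact_mod_cast hT
  refine Box.node_le hm hb (t := Z * x / T)
    (rs := [(T : ℝ), T ^ 2 * y / (Z * x ^ 2), T ^ 2 * z / (Z * x ^ 2), T ^ 2 * w / (Z * x ^ 2)])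
    ?_ ⟨by simp [Iv.Mem], h2, h3, h4, rfl⟩ ?_
  · simp only [Box.origin, Iv.Mem]
    push_cast
    exact ⟨by positivity, by rwa [div_le_one hT']⟩
  · simp only [Box.point, Box.origin, coordsAt, List.zipWith_cons_cons, List.zipWith_nil_left]
    have := hx.ne'
    push_cast
    refine List.ext_getElem (by simp) fun i hi _ => ?_
    simp at hi
    interval_cases i <;> simp <;> field_simp

end Vale.Agent.P154.Q3.End
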